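import Vale.Agent.P334.Final
import Vale.Agent.P049.PTRat

/-!
Metric `k`-median, derandomisation: rational approximations of the potentials.
-/

namespace Vale.Agent.N334

open Finset Vale.Agent.P334 Vale.Agent.P334.Proc

/-! ### The exponential function -/

/-- A lower approximation of `exp (-x)`. -/
def exN (x : ℚ) (M : ℕ) : ℚ := (1 - x / M) ^ M

/-- An upper approximation of `exp x`. -/
def exP (x : ℚ) (M : ℕ) : ℚ := (1 + x / M + (x / M) ^ 2) ^ M

theorem exN_spec {x : ℚ} {M : ℕ} (h0 : 0 ≤ x) (h1 : x < M) :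
    0 < exN x M ∧ (exN x M : ℝ) ≤ Real.exp (-x) ∧ Real.exp (-x) ≤ exN x M + x ^ 2 / M := by
  have h0' : (0 : ℝ) ≤ x := by exact_mod_cast h0
  have h1' : (x : ℝ) < M := by exact_mod_cast h1
  have hM : (0 : ℝ) < M := h0'.trans_lt h1'
  have hMq : (0 : ℚ) < M := h0.trans_lt h1
  set y : ℝ := x / M with hy
  have hy0 : 0 ≤ y := by positivity
  have hy1 : y < 1 := (div_lt_one hM).2 h1'
  have e1 : (exN x M : ℝ) = (1 - y) ^ M := by
    rw [exN]
    push_cast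
    rfl
  have e2 : Real.exp (-x) = Real.exp (-y) ^ M := by
    rw [← Real.exp_nat_mul, hy]
    congr 1
    field_simp
  have l1 : 1 - y ≤ Real.exp (-y) := by linarith [Real.add_one_le_exp (-y)]
  have l2 : Real.exp (-y) ≤ 1 - y + y ^ 2 := by
    have := exp_le_quad (u := -y) (by rw [abs_neg, abs_of_nonneg hy0]; exact hy1.le)
    linarith
  have l3 : Real.exp (-y) ≤ 1 := Real.exp_le_one_iff.2 (by linarith)
  refine ⟨pow_pos (sub_pos.2 ((div_lt_one hMq).2 h1)) _, ?_, ?_⟩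
  · rw [e1, e2]
    exact pow_le_pow_left₀ (by linarith) l1 _
  · rw [e1, e2]
    have h2 := abs_pow_sub_pow_le (Real.exp (-y)) (1 - y) M
    have h3 : max |Real.exp (-y)| |1 - y| ^ (M - 1) ≤ 1 := by
      refine pow_le_one₀ (le_max_of_le_left (abs_nonneg _)) (max_le ?_ ?_)
      · rwa [abs_of_pos (Real.exp_pos _)]
      · rw [abs_of_nonneg (by linarith)]
        linarith
    have h4 : |Real.exp (-y) - (1 - y)| ≤ y ^ 2 := by
      rw [abs_of_nonneg (by linarith)]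
      linarith
    have h5 : |Real.exp (-y) - (1 - y)| * M * max |Real.exp (-y)| |1 - y| ^ (M - 1) ≤
        y ^ 2 * M * 1 :=
      mul_le_mul (mul_le_mul_of_nonneg_right h4 hM.le) h3 (by positivity) (by positivity)
    have h6 : y ^ 2 * M * 1 = x ^ 2 / M := by
      rw [hy]
      field_simp
    linarith [le_abs_self (Real.exp (-y) ^ M - (1 - y) ^ M)]

theorem exP_spec {x : ℚ} {M : ℕ} (hM : 1 ≤ M) (h : (x : ℝ) ^ 2 ≤ M) :
    Real.exp x ≤ exP x M ∧ (exP x M : ℝ) ≤ Real.exp x * (1 + 2 * (x ^ 2 / M)) := by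
  have hM1 : (1 : ℝ) ≤ M := by exact_mod_cast hM
  have hM0 : (0 : ℝ) < M := by linarith
  set y : ℝ := x / M with hy
  have hy1 : |y| ≤ 1 := by
    rw [hy, abs_div, abs_of_pos hM0, div_le_one hM0]
    refine abs_le_of_sq_le_sq' ?_ hM0.le |> abs_le.2
    nlinarith
  have e1 : (exP x M : ℝ) = (1 + y + y ^ 2) ^ M := by
    rw [exP]
    push_cast
    rfl
  have e2 : Real.exp x = Real.exp y ^ M := by
    rw [← Real.exp_nat_mul, hy]
    congr 1
    field_simp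
  have l1 := exp_le_quad hy1
  refine ⟨?_, ?_⟩
  · rw [e1, e2]
    exact pow_le_pow_left₀ (Real.exp_pos _).le l1 _
  · have l2 : 1 + y + y ^ 2 ≤ Real.exp (y + y ^ 2) := by linarith [Real.add_one_le_exp (y + y ^ 2)]
    have l3 : (1 + y + y ^ 2) ^ M ≤ Real.exp (y + y ^ 2) ^ M :=
      pow_le_pow_left₀ ((Real.exp_pos _).le.trans l1) l2 _
    have e3 : Real.exp (y + y ^ 2) ^ M = Real.exp x * Real.exp (x ^ 2 / M) := by
      rw [← Real.exp_nat_mul, ← Real.exp_add, hy]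
      congr 1
      field_simp
    have h0 : (0 : ℝ) ≤ x ^ 2 / M := by positivity
    have h1 : (x : ℝ) ^ 2 / M ≤ 1 := (div_le_one hM0).2 h
    have l4 : Real.exp (x ^ 2 / M) ≤ 1 + 2 * (x ^ 2 / M) := by
      have := exp_le_quad (u := x ^ 2 / M) (by rwa [abs_of_nonneg h0])
      nlinarith
    rw [e1]
    exact l3.trans (e3 ▸ mul_le_mul_of_nonneg_left l4 (Real.exp_pos _).le)

/-- The approximation of the slope `pf (exp (-θ))`. -/
def pA (θ : ℚ) (M : ℕ) : ℚ := 2 * (1 - (1 + exN θ M) * exN (exN θ M) M) / exN θ M ^ 2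

/-- The approximation of `qf (exp (-θ))`. -/
def qA (θ : ℚ) (M : ℕ) : ℚ := 3 - 2 * exN (exN θ M) M - 2 * pA θ M * exN θ M

theorem pq_close {θ : ℚ} {M : ℕ} {T : ℝ} (h0 : 0 ≤ θ) (h1 : (θ : ℝ) ≤ T) (h2 : T + 1 < M) :
    |(pA θ M : ℝ) - pf (Real.exp (-θ))| ≤ (10 + 8 * T ^ 2) / M ∧
      |(qA θ M : ℝ) - qf (Real.exp (-θ))| ≤ (10 + 8 * T ^ 2) / M := by
  have h0' : (0 : ℝ) ≤ θ := by exact_mod_cast h0
  have hM1 : (1 : ℝ) < M := by linarith
  have hM : (0 : ℝ) < M := by linarith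
  obtain ⟨a1, a2, a3⟩ := exN_spec (M := M) h0 (by
    rw [← Rat.cast_lt (K := ℝ)]
    push_cast
    linarith)
  set τ : ℝ := Real.exp (-θ) with hτ
  have hτ1 : τ ≤ 1 := Real.exp_le_one_iff.2 (by linarith)
  have a1' : (0 : ℝ) < exN θ M := by exact_mod_cast a1
  obtain ⟨-, b2, b3⟩ := exN_spec (M := M) a1.le (by
    rw [← Rat.cast_lt (K := ℝ)]
    push_cast
    linarith)
  set σ : ℝ := ((exN θ M : ℚ) : ℝ) with hσ
  set w : ℝ := ((exN (exN θ M) M : ℚ) : ℝ) with hw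
  have hθT : (θ : ℝ) ^ 2 / M ≤ T ^ 2 / M :=
    div_le_div_of_nonneg_right (pow_le_pow_left₀ h0' h1 2) hM.le
  have i0 : 0 < 1 / (M : ℝ) := by positivity
  have iT : 0 ≤ T ^ 2 / M := by positivity
  have c1 : pp σ ≤ pp τ + 2 * (τ - σ) := pp_lip a1' a2 hτ1
  have c2 : pp τ ≤ pp σ := pp_anti a1' a2
  have e1 : (pA θ M : ℝ) = pp σ + 2 * (1 + σ) * ((Real.exp (-σ) - w) / σ ^ 2) := by
    rw [pA, pp]
    push_cast
    rw [← hσ, ← hw]
    field_simp
    ring
  have c3 : 0 ≤ (Real.exp (-σ) - w) / σ ^ 2 := div_nonneg (by linarith) (by positivity)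
  have c4 : (Real.exp (-σ) - w) / σ ^ 2 ≤ 1 / M := by
    rw [div_le_iff₀ (by positivity)]
    have : σ ^ 2 / M = 1 / M * σ ^ 2 := by ring
    linarith
  have c5 : 2 * (1 + σ) * ((Real.exp (-σ) - w) / σ ^ 2) ≤ 4 * (1 / M) :=
    mul_le_mul (by linarith) c4 c3 (by norm_num)
  have c6 : 0 ≤ 2 * (1 + σ) * ((Real.exp (-σ) - w) / σ ^ 2) := by positivity
  have e0 : (10 + 8 * T ^ 2) / (M : ℝ) = 10 * (1 / M) + 8 * (T ^ 2 / M) := by ring
  have d1 : pp τ ≤ pA θ M := by linarith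
  have d2 : (pA θ M : ℝ) ≤ pp τ + (4 * (1 / M) + 2 * (T ^ 2 / M)) := by linarith
  refine ⟨?_, ?_⟩
  · rw [pf_eq, abs_le, e0]
    constructor <;> linarith
  · have e2 : (qA θ M : ℝ) = 3 - 2 * w - 2 * pA θ M * σ := by
      rw [qA]
      push_cast
      rfl
    have f1 : Real.exp (-τ) ≤ Real.exp (-σ) := Real.exp_le_exp.2 (by linarith)
    have f2 : Real.exp (-σ) ≤ Real.exp (-τ) + (τ - σ) := by
      have g1 : Real.exp (-τ) = Real.exp (-σ) * Real.exp (-(τ - σ)) := by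
        rw [← Real.exp_add]
        congr 1
        ring
      have g2 := Real.add_one_le_exp (-(τ - σ))
      have g3 : Real.exp (-σ) ≤ 1 := Real.exp_le_one_iff.2 (by linarith)
      have g4 := Real.exp_pos (-σ)
      nlinarith
    have f3 : σ ^ 2 / M ≤ 1 / M :=
      div_le_div_of_nonneg_right (pow_le_one₀ a1'.le (by linarith)) hM.le
    have p0 := half_le_pp (Real.exp_pos (-(θ : ℝ))) hτ1
    have p1 := pp_le_one (Real.exp_pos (-(θ : ℝ))) hτ1
    rw [← hτ] at p0 p1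
    have g1 : pA θ M * σ ≤ pp τ * τ + (4 * (1 / M) + 2 * (T ^ 2 / M)) := by
      have k1 := mul_le_mul_of_nonneg_right d2 a1'.le
      have k2 := mul_le_mul_of_nonneg_left a2 (show 0 ≤ pp τ by linarith)
      have k3 := mul_le_mul_of_nonneg_left (a2.trans hτ1)
        (show 0 ≤ 4 * (1 / (M : ℝ)) + 2 * (T ^ 2 / M) by positivity)
      nlinarith
    have g2 : pp τ * τ ≤ pA θ M * σ + T ^ 2 / M := by
      have k1 := mul_le_mul_of_nonneg_right d1 a1'.le
      have k2 := mul_le_mul_of_nonneg_right p1 (show 0 ≤ τ - σ by linarith)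
      nlinarith
    rw [qf_eq, qq, e2, abs_le, e0]
    constructor <;> linarith

/-! ### The main potential -/

section phi

variable {P : Par} {C : Client} {V : View}

/-- The candidates for the minimum: everything below the radius `r`, the share `s` at `r`. -/
noncomputable def nuR (P : Par) (C : Client) (V : View) (r s : ℝ) (i : ℕ) : ℝ :=
  if P.d C.j i < r then C.x V i else if P.d C.j i = r then s * C.x V i else 0

/-- The bilinear potential with given coefficients. -/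
noncomputable def valR (P : Par) (C : Client) (b p q : ℝ) (ν : ℕ → ℝ) : ℝ :=
  (1 - ∑ i ∈ P.I, ν i) * b + (q + p * ∑ i ∈ P.I, ν i) * ∑ i ∈ P.I, ν i * P.d C.j i

theorem nuR_mem (hC : C.OK P) (hV : V.OK P) (r : ℝ) {s : ℝ} (h0 : 0 ≤ s) (h1 : s ≤ 1) (i : ℕ) :
    0 ≤ nuR P C V r s i ∧ nuR P C V r s i ≤ C.x V i := by
  have := hC.x_nonneg hV i
  unfold nuR
  split_ifs
  · exact ⟨this, le_rfl⟩
  · exact ⟨mul_nonneg h0 this, mul_le_of_le_one_left this h1⟩
  · exact ⟨le_rfl, this⟩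

theorem valR_close (hP : P.OK) (hC : C.OK P) (hV : V.OK P) (hI : C.Inv P V) {p q ζ : ℝ}
    (hp : |p - pf (Real.exp (-V.θ))| ≤ ζ) (hq : |q - qf (Real.exp (-V.θ))| ≤ ζ) {ν : ℕ → ℝ}
    (hν : ∀ i ∈ P.I, 0 ≤ ν i ∧ ν i ≤ C.x V i) :
    |valR P C (V.D C.j) p q ν - C.Phi0 P V.θ (V.D C.j) ν| ≤ 2 * ζ * P.U := by
  have a0 : 0 ≤ ∑ i ∈ P.I, ν i := sum_nonneg fun i hi => (hν i hi).1
  have a1 : ∑ i ∈ P.I, ν i ≤ 1 := (sum_le_sum fun i hi => (hν i hi).2).trans (hC.A_le_one hI)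
  have g0 : 0 ≤ ∑ i ∈ P.I, ν i * P.d C.j i :=
    sum_nonneg fun i hi => mul_nonneg (hν i hi).1 (hP.d_pos _ _).le
  have g1 : ∑ i ∈ P.I, ν i * P.d C.j i ≤ P.U :=
    (sum_le_sum fun i hi => mul_le_mul_of_nonneg_right (hν i hi).2 (hP.d_pos _ _).le).trans
      (hC.G_le_U hP hV hI)
  have hζ : 0 ≤ ζ := (abs_nonneg _).trans hp
  have e : valR P C (V.D C.j) p q ν - C.Phi0 P V.θ (V.D C.j) ν =
      ((q - qf (Real.exp (-V.θ))) + (p - pf (Real.exp (-V.θ))) * ∑ i ∈ P.I, ν i) *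
        ∑ i ∈ P.I, ν i * P.d C.j i := by
    rw [valR, Client.Phi0]
    ring
  rw [e, abs_mul, abs_of_nonneg g0]
  refine mul_le_mul ((abs_add_le _ _).trans ?_) g1 g0 (by positivity)
  rw [abs_mul, abs_of_nonneg a0]
  nlinarith [mul_le_mul hp a1 a0 hζ]

theorem phi_le_D (hP : P.OK) (hC : C.OK P) (hV : V.OK P) : C.Phi P V ≤ V.D C.j := by
  have := phi_le_phi0 (C := C) hP hV (ν := fun _ => 0) fun i _ => ⟨le_rfl, hC.x_nonneg hV i⟩
  simpa [Client.Phi0] using this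

theorem phi_le_val (hP : P.OK) (hC : C.OK P) (hV : V.OK P) (hI : C.Inv P V) {p q ζ : ℝ}
    (hp : |p - pf (Real.exp (-V.θ))| ≤ ζ) (hq : |q - qf (Real.exp (-V.θ))| ≤ ζ) (r : ℝ) {s : ℝ}
    (h0 : 0 ≤ s) (h1 : s ≤ 1) :
    C.Phi P V ≤ valR P C (V.D C.j) p q (nuR P C V r s) + 2 * ζ * P.U := by
  have h2 := fun i (_ : i ∈ P.I) => nuR_mem hC hV r h0 h1 i
  have h3 := phi_le_phi0 hP hV h2
  linarith [(abs_le.1 (valR_close hP hC hV hI hp hq h2)).1]

/-- Every admissible measure is dominated by a candidate. -/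
theorem exists_cand (hP : P.OK) (hC : C.OK P) (hV : V.OK P) (hI : C.Inv P V) (hne : P.I.Nonempty)
    {K : ℕ} (hK : 0 < K) {ν : ℕ → ℝ} (hν : ∀ i ∈ P.I, 0 ≤ ν i ∧ ν i ≤ C.x V i) :
    ∃ e ∈ P.I, ∃ t ≤ K, C.Phi0 P V.θ (V.D C.j) (nuR P C V (P.d C.j e) (t / K)) ≤
      C.Phi0 P V.θ (V.D C.j) ν + P.U / K := by
  classical
  have hK' : (0 : ℝ) < K := by exact_mod_cast hK
  have hx := hC.x_nonneg hV
  set a := ∑ i ∈ P.I, ν i with ha
  have a0 : 0 ≤ a := sum_nonneg fun i hi => (hν i hi).1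
  set S : Finset ℕ := P.I.filter fun c => a ≤ ∑ i ∈ P.I with P.d C.j i ≤ P.d C.j c, C.x V i with hS
  have hSne : S.Nonempty := by
    obtain ⟨c, hc, hmax⟩ := exists_max_image P.I (P.d C.j) hne
    refine ⟨c, mem_filter.2 ⟨hc, ?_⟩⟩
    rw [filter_true_of_mem hmax]
    exact sum_le_sum fun i hi => (hν i hi).2
  obtain ⟨e, he, hmin⟩ := exists_min_image S (P.d C.j) hSne
  set r := P.d C.j e with hr
  set m₁ : ℝ := ∑ i ∈ P.I with P.d C.j i < r, C.x V i with hm₁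
  set m₂ : ℝ := ∑ i ∈ P.I with P.d C.j i = r, C.x V i with hm₂
  have m2 : 0 ≤ m₂ := sum_nonneg fun i _ => hx i
  have m3 : m₂ ≤ 1 := (sum_le_sum_of_subset_of_nonneg (filter_subset _ _) fun i _ _ => hx i).trans
    (hC.A_le_one hI)
  have h1 : m₁ ≤ a := by
    rcases (P.I.filter fun i => P.d C.j i < r).eq_empty_or_nonempty with h | h
    · rw [hm₁, h, sum_empty]
      exact a0
    · obtain ⟨c, hc, hmax⟩ := exists_max_image _ (P.d C.j) h
      by_contra h2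
      have h3 : c ∈ S := mem_filter.2 ⟨(mem_filter.1 hc).1, (not_le.1 h2).le.trans
        (sum_le_sum_of_subset_of_nonneg (fun i hi => mem_filter.2 ⟨(mem_filter.1 hi).1, hmax i hi⟩)
          fun i _ _ => hx i)⟩
      exact absurd (hmin c h3) (not_le.2 (mem_filter.1 hc).2)
  have h2 : a ≤ m₁ + m₂ := by
    refine (mem_filter.1 he).2.trans (le_of_eq ?_)
    rw [hm₁, hm₂, sum_filter, sum_filter, sum_filter, ← sum_add_distrib]
    refine sum_congr rfl fun c _ => ?_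
    rcases lt_trichotomy (P.d C.j c) r with h | h | h
    · rw [if_pos h.le, if_pos h, if_neg h.ne, add_zero]
    · rw [if_pos h.le, if_neg h.ge.not_gt, if_pos h, zero_add]
    · rw [if_neg h.not_ge, if_neg h.le.not_gt, if_neg h.ne', add_zero]
  obtain ⟨t, ht, t1, t2⟩ : ∃ t ≤ K, m₁ + (t : ℝ) / K * m₂ ≤ a ∧
      a ≤ m₁ + (t : ℝ) / K * m₂ + 1 / K := by
    rcases m2.eq_or_lt with h | h
    · refine ⟨0, Nat.zero_le _, by simpa using h1, ?_⟩
      have : (0 : ℝ) ≤ 1 / K := by positivity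
      rw [← h] at h2 ⊢
      linarith
    · have k0 : 0 ≤ (a - m₁) / m₂ * K := mul_nonneg (div_nonneg (by linarith) h.le) hK'.le
      have k1 : (a - m₁) / m₂ ≤ 1 := (div_le_one h).2 (by linarith)
      have k2 := Nat.floor_le k0
      have k3 := (Nat.lt_floor_add_one ((a - m₁) / m₂ * K)).le
      refine ⟨⌊(a - m₁) / m₂ * K⌋₊, ?_, ?_, ?_⟩
      · exact_mod_cast k2.trans (mul_le_of_le_one_left hK'.le k1)
      · rw [← div_le_iff₀ hK', le_div_iff₀ h] at k2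
        linarith
      · rw [← le_div_iff₀ hK', div_le_iff₀ h, add_div, add_mul] at k3
        have : 1 / (K : ℝ) * m₂ ≤ 1 / K := mul_le_of_le_one_right (by positivity) m3
        linarith
  refine ⟨e, (mem_filter.1 he).1, t, ht, ?_⟩
  have s0 : (0 : ℝ) ≤ t / K := by positivity
  have s1 : (t : ℝ) / K ≤ 1 := (div_le_one hK').2 (by exact_mod_cast ht)
  have hμ := nuR_mem hC hV r s0 s1
  set μ := nuR P C V r (t / K) with hμd
  have e1 : ∑ i ∈ P.I, μ i = m₁ + t / K * m₂ := by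
    rw [hm₁, hm₂, mul_sum, sum_filter, sum_filter, ← sum_add_distrib]
    refine sum_congr rfl fun c _ => ?_
    rcases lt_trichotomy (P.d C.j c) r with h | h | h
    · simp only [hμd, nuR, if_pos h, if_neg h.ne, add_zero]
    · simp only [hμd, nuR, if_neg h.ge.not_gt, if_pos h, zero_add]
    · simp only [hμd, nuR, if_neg h.le.not_gt, if_neg h.ne', add_zero]
  have e2 : ∑ i ∈ P.I, μ i * (P.d C.j i - r) ≤ ∑ i ∈ P.I, ν i * (P.d C.j i - r) := by
    refine sum_le_sum fun i hi => ?_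
    rcases lt_trichotomy (P.d C.j i) r with h | h | h
    · simp only [hμd, nuR, if_pos h]
      exact mul_le_mul_of_nonpos_right (hν i hi).2 (by linarith)
    · rw [h, sub_self, mul_zero, mul_zero]
    · simp only [hμd, nuR, if_neg h.le.not_gt, if_neg h.ne', zero_mul]
      exact mul_nonneg (hν i hi).1 (by linarith)
  simp only [mul_sub, sum_sub_distrib, ← sum_mul] at e2
  rw [← ha] at e2
  rw [← e1] at t1 t2
  have r0 : 0 < r := hP.d_pos _ _
  have g0 : 0 ≤ ∑ i ∈ P.I, μ i * P.d C.j i :=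
    sum_nonneg fun i _ => mul_nonneg (hμ i).1 (hP.d_pos _ _).le
  have g1 : ∑ i ∈ P.I, μ i * P.d C.j i ≤ ∑ i ∈ P.I, ν i * P.d C.j i := by
    nlinarith [mul_le_mul_of_nonneg_right t1 r0.le]
  have b0 : 0 ≤ ∑ i ∈ P.I, μ i := sum_nonneg fun i _ => (hμ i).1
  have τ0 : 0 < Real.exp (-V.θ) := Real.exp_pos _
  have τ1 : Real.exp (-V.θ) ≤ 1 := Real.exp_le_one_iff.2 (by linarith [hV.θ_nonneg])
  have hq := one_le_qf τ0 τ1
  have hp := half_le_pf τ0 τ1
  have k1 : (qf (Real.exp (-V.θ)) + pf (Real.exp (-V.θ)) * ∑ i ∈ P.I, μ i) *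
      ∑ i ∈ P.I, μ i * P.d C.j i ≤
      (qf (Real.exp (-V.θ)) + pf (Real.exp (-V.θ)) * a) * ∑ i ∈ P.I, ν i * P.d C.j i :=
    mul_le_mul (by nlinarith) g1 g0 (by nlinarith)
  have k2 : (a - ∑ i ∈ P.I, μ i) * V.D C.j ≤ 1 / K * P.U :=
    mul_le_mul (by linarith) (hV.D_le _) (hV.D_pos _).le (by positivity)
  rw [Client.Phi0, Client.Phi0, ← ha]
  have e3 : P.U / K = 1 / K * P.U := by ring
  linarith

theorem le_phi (hP : P.OK) (hC : C.OK P) (hV : V.OK P) (hI : C.Inv P V) (hne : P.I.Nonempty)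
    {p q ζ : ℝ} (hp : |p - pf (Real.exp (-V.θ))| ≤ ζ) (hq : |q - qf (Real.exp (-V.θ))| ≤ ζ)
    {K : ℕ} (hK : 0 < K) {m : ℝ}
    (h : ∀ e ∈ P.I, ∀ t ≤ K, m ≤ valR P C (V.D C.j) p q (nuR P C V (P.d C.j e) (t / K))) :
    m ≤ C.Phi P V + (P.U / K + 2 * ζ * P.U) := by
  have hK' : (0 : ℝ) < K := by exact_mod_cast hK
  rw [← sub_le_iff_le_add]
  refine le_csInf ⟨_, fun _ => 0, fun i _ => ⟨le_rfl, hC.x_nonneg hV i⟩, rfl⟩ ?_
  rintro r ⟨ν, hν, rfl⟩
  obtain ⟨e, he, t, ht, h1⟩ := exists_cand hP hC hV hI hne hK hν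
  have h2 := valR_close hP hC hV hI hp hq fun i (_ : i ∈ P.I) => nuR_mem hC hV (P.d C.j e)
    (s := t / K) (by positivity) ((div_le_one hK').2 (by exact_mod_cast ht)) i
  linarith [h e he t ht, (abs_le.1 h2).2]

end phi

/-! ### The clients -/

/-- The shares of the nearest assignment with radius `R`. -/
noncomputable def lamR (P : Par) (j : ℕ) (y0 : ℕ → ℝ) (R : ℝ) (i : ℕ) : ℝ :=
  if P.d j i < R then 1 else if P.d j i = R then
    (1 - ∑ c ∈ P.I with P.d j c < R, y0 c) / ∑ c ∈ P.I with P.d j c = R, y0 c else 0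

theorem client_ok (P : Par) (j : ℕ) (y0 : ℕ → ℝ) (hy : ∀ i, 0 ≤ y0 i) {R : ℝ}
    (h1 : ∑ c ∈ P.I with P.d j c < R, y0 c < 1) (h2 : 1 ≤ ∑ c ∈ P.I with P.d j c ≤ R, y0 c) :
    Client.OK P ⟨j, lamR P j y0 R, y0, R⟩ ∧ ∀ x : ℕ → ℝ, (∀ i ∈ P.I, 0 ≤ x i ∧ x i ≤ y0 i) →
      ∑ i ∈ P.I, x i = 1 →
        Client.G0 P ⟨j, lamR P j y0 R, y0, R⟩ ≤ ∑ i ∈ P.I, x i * P.d j i := by
  set m₁ : ℝ := ∑ c ∈ P.I with P.d j c < R, y0 c with hm₁
  set m₂ : ℝ := ∑ c ∈ P.I with P.d j c = R, y0 c with hm₂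
  have h2' : 1 ≤ m₁ + m₂ := by
    refine h2.trans (le_of_eq ?_)
    rw [hm₁, hm₂, sum_filter, sum_filter, sum_filter, ← sum_add_distrib]
    refine sum_congr rfl fun c _ => ?_
    rcases lt_trichotomy (P.d j c) R with h | h | h
    · rw [if_pos h.le, if_pos h, if_neg h.ne, add_zero]
    · rw [if_pos h.le, if_neg h.ge.not_gt, if_pos h, zero_add]
    · rw [if_neg h.not_ge, if_neg h.le.not_gt, if_neg h.ne', add_zero]
  have h3 : 0 < m₂ := by linarith
  have hlam : ∀ i, lamR P j y0 R i =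
      if P.d j i < R then 1 else if P.d j i = R then (1 - m₁) / m₂ else 0 := fun _ => rfl
  have ht0 : 0 ≤ (1 - m₁) / m₂ := div_nonneg (by linarith) h3.le
  have ht1 : (1 - m₁) / m₂ ≤ 1 := (div_le_one h3).2 (by linarith)
  have hsum : ∑ i ∈ P.I, lamR P j y0 R i * y0 i = 1 := by
    have h4 : ∑ i ∈ P.I, lamR P j y0 R i * y0 i = m₁ + (1 - m₁) / m₂ * m₂ := by
      conv_rhs => rw [hm₂, mul_sum, sum_filter]; enter [1]; rw [hm₁, sum_filter]
      rw [← sum_add_distrib]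
      refine sum_congr rfl fun c _ => ?_
      rcases lt_trichotomy (P.d j c) R with h | h | h
      · simp only [hlam, if_pos h, if_neg h.ne, one_mul, add_zero]
      · simp only [hlam, if_neg h.ge.not_gt, if_pos h, zero_add, hm₂]
      · simp only [hlam, if_neg h.le.not_gt, if_neg h.ne', zero_mul, add_zero]
    rw [h4, div_mul_cancel₀ _ h3.ne']
    ring
  refine ⟨⟨fun i => ?_, fun i => ?_, hy, hsum, fun i _ hi => ?_, fun w hw => ?_⟩,
    fun x hx hs => ?_⟩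
  · simp only [hlam]
    split_ifs
    exacts [zero_le_one, ht0, le_rfl]
  · simp only [hlam]
    split_ifs
    exacts [le_rfl, ht1, zero_le_one]
  · by_contra h
    have h4 : R < P.d j i := not_le.1 h
    exact hi (by simp only [hlam, if_neg h4.le.not_gt, if_neg h4.ne'])
  · by_contra h
    have h4 : w < R := not_le.1 h
    have h5 : ∑ c ∈ P.I with P.d j c ≤ w, y0 c ≤ m₁ :=
      sum_le_sum_of_subset_of_nonneg (fun c hc => mem_filter.2 ⟨(mem_filter.1 hc).1,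
        (mem_filter.1 hc).2.trans_lt h4⟩) fun c _ _ => hy c
    exact absurd (hw.trans h5) (not_le.2 h1)
  · have h4 : ∑ i ∈ P.I, lamR P j y0 R i * y0 i * (P.d j i - R) ≤
        ∑ i ∈ P.I, x i * (P.d j i - R) := by
      refine sum_le_sum fun i hi => ?_
      rcases lt_trichotomy (P.d j i) R with h | h | h
      · simp only [hlam, if_pos h, one_mul]
        exact mul_le_mul_of_nonpos_right (hx i hi).2 (by linarith)
      · rw [h, sub_self, mul_zero, mul_zero]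
      · simp only [hlam, if_neg h.le.not_gt, if_neg h.ne', zero_mul]
        exact mul_nonneg (hx i hi).1 (by linarith)
    simp only [mul_sub, sum_sub_distrib, ← sum_mul, hsum, hs] at h4
    simp only [Client.G0]
    linarith

end Vale.Agent.N334
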