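import Vale.Agent.N334.Est

/-!
Metric `k`-median, derandomisation: the estimator is close to the potential.
-/

namespace Vale.Agent.N334

open Finset Vale.Agent.P334 Vale.Agent.P334.Proc Vale.Agent.P334.Alg Vale.Agent.Lib.PolyTime

/-- The client attached to `j`. -/
noncomputable def cli (c : Cfg) (P : Par) (s0 : St) (j : ℕ) : Client :=
  ⟨j, lamR P j (c.view s0).y (Rn c s0 j), (c.view s0).y, Rn c s0 j⟩

variable {c : Cfg} {tb : ℕ → ℕ} {n : ℝ} {δ ε : ℚ} (hc : c.OK tb n δ ε) {P : Par}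
  (hP : P = c.par n δ ε)

theorem yq_cast (s : St) (i : ℕ) : (yq c s i : ℝ) = (c.view s).y i := by
  simp only [yq, Cfg.view]
  push_cast
  rfl

theorem Dn_cast (s : St) (a : ℕ) : ((Dn c s a : ℕ) : ℝ) = (c.view s).D a := rfl

include hc hP

omit hc in
theorem d_eq (a b : ℕ) : P.d a b = (c.dd a b : ℕ) := by
  subst hP
  rfl

theorem sm_cast (f : ℕ → ℚ) : (sm c f : ℝ) = ∑ i ∈ P.I, (f i : ℝ) := by
  subst hP
  rw [sm, ← List.sum_toFinset _ hc.nodup, Rat.cast_sum]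
  rfl

theorem sm_ite (p : ℕ → Prop) [DecidablePred p] (p' : ℕ → Prop) [DecidablePred p']
    (h : ∀ i, p i ↔ p' i) (s : St) : (sm c (fun i => if p i then yq c s i else 0) : ℝ) =
      ∑ i ∈ P.I with p' i, (c.view s).y i := by
  rw [sm_cast hc hP, sum_filter]
  refine sum_congr rfl fun i _ => ?_
  by_cases e : p i
  · rw [if_pos e, if_pos ((h i).1 e), yq_cast]
  · rw [if_neg e, if_neg fun e' => e ((h i).2 e'), Rat.cast_zero]

theorem mem_full (s0 : St) (j e : ℕ) : e ∈ full c s0 j ↔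
    e ∈ P.I ∧ 1 ≤ ∑ i ∈ P.I with P.d j i ≤ P.d j e, (c.view s0).y i := by
  rw [full, List.mem_filter, decide_eq_true_eq, ← Rat.cast_le (K := ℝ), Rat.cast_one,
    sm_ite hc hP _ (fun i => P.d j i ≤ P.d j e) (fun i => by
      rw [d_eq hP, d_eq hP, Nat.cast_le])]
  subst hP
  exact and_congr_left fun _ => List.mem_toFinset.symm

theorem cli_ok {s0 : St} (h : 1 ≤ ∑ i ∈ P.I, (c.view s0).y i) (j : ℕ) :
    (cli c P s0 j).OK P ∧ ∀ x : ℕ → ℝ, (∀ i ∈ P.I, 0 ≤ x i ∧ x i ≤ (c.view s0).y i) →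
      ∑ i ∈ P.I, x i = 1 → (cli c P s0 j).G0 P ≤ ∑ i ∈ P.I, x i * P.d j i := by
  have hy : ∀ i, 0 ≤ (c.view s0).y i := fun i => by
    simp only [Cfg.view]
    positivity
  have aux : ∀ F ⊆ P.I, 1 ≤ ∑ e ∈ F, (c.view s0).y e → ∃ e ∈ F, e ∈ full c s0 j := by
    intro F hF h1
    have hne : F.Nonempty := by
      rw [nonempty_iff_ne_empty]
      rintro rfl
      rw [sum_empty] at h1
      linarith
    obtain ⟨e, he, hmax⟩ := exists_max_image F (P.d j) hne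
    refine ⟨e, he, (mem_full hc hP s0 j e).2 ⟨hF he, h1.trans ?_⟩⟩
    exact sum_le_sum_of_subset_of_nonneg (fun e' he' => mem_filter.2 ⟨hF he', hmax e' he'⟩)
      fun e' _ _ => hy e'
  obtain ⟨e₀, -, he₀⟩ := aux P.I Subset.rfl h
  have h1 := (mem_full hc hP s0 j _).1
    (amin_headD_mem (fun e => c.dd j e) (List.ne_nil_of_mem he₀))
  refine client_ok P j _ hy ?_ ?_
  · by_contra h2
    obtain ⟨e, he, h3⟩ := aux _ (filter_subset _ _) (not_lt.1 h2)
    have h4 := (mem_filter.1 he).2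
    rw [d_eq hP, Nat.cast_lt] at h4
    exact absurd (amin_le (fun e => c.dd j e) _ h3) (not_le.2 h4)
  · have h2 := h1.2
    rwa [d_eq hP j (amin _ _ _)] at h2

theorem lam_cast (s0 : St) (j i : ℕ) : (lam c s0 j i : ℝ) = (cli c P s0 j).lam i := by
  simp only [lam, cli, lamR, d_eq hP j i, Nat.cast_lt, Nat.cast_inj]
  split_ifs
  · exact Rat.cast_one
  · rw [Rat.cast_div, Rat.cast_sub, Rat.cast_one,
      sm_ite hc hP _ (fun e => P.d j e < Rn c s0 j) (fun e => by rw [d_eq hP, Nat.cast_lt]),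
      sm_ite hc hP _ (fun e => P.d j e = Rn c s0 j) (fun e => by rw [d_eq hP, Nat.cast_inj])]
  · exact Rat.cast_zero

theorem xq_cast (s0 s : St) (j i : ℕ) : (xq c s0 s j i : ℝ) = (cli c P s0 j).x (c.view s) i := by
  rw [xq, Rat.cast_mul, lam_cast hc hP, yq_cast]
  rfl

theorem Aq_cast (s0 s : St) (j : ℕ) : (Aq c s0 s j : ℝ) = (cli c P s0 j).A P (c.view s) := by
  rw [Aq, sm_cast hc hP]
  exact sum_congr rfl fun i _ => xq_cast hc hP s0 s j i

theorem Gq_cast (s0 s : St) (j : ℕ) : (Gq c s0 s j : ℝ) = (cli c P s0 j).G P (c.view s) := by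
  rw [Gq, sm_cast hc hP]
  refine sum_congr rfl fun i _ => ?_
  rw [Rat.cast_mul, xq_cast hc hP, Rat.cast_natCast, ← d_eq hP]
  rfl

theorem G0_cast (s0 : St) (j : ℕ) : (Gq c s0 s0 j : ℝ) = (cli c P s0 j).G0 P :=
  Gq_cast hc hP s0 s0 j

theorem rq_cast (s : St) (i : ℕ) : (rq c s i : ℝ) = (c.view s).rho P i := by
  rw [rq, sm_cast hc hP]
  refine sum_congr rfl fun e _ => ?_
  rw [Rat.cast_mul, Rat.cast_mul, yq_cast, Rat.cast_natCast, ← d_eq hP]
  simp only [Cfg.view]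
  push_cast
  rfl

omit hc in
theorem Uq_cast : (Uq c : ℝ) = P.U := by
  subst hP
  simp only [Uq, Cfg.par]
  push_cast
  rfl

theorem hq_cast (s0 s : St) (j i : ℕ) :
    (hq c δ s0 s j i : ℝ) = (cli c P s0 j).hh P (c.view s) i := by
  have e : c.rad s i = Dn c s i ↔ (c.view s).v i = (c.view s).D i := by
    rw [hc.v_eq, ← Dn_cast, Nat.cast_inj]
  rw [hq, Client.hh]
  by_cases h : c.rad s i = Dn c s i
  · rw [if_pos h, if_pos (e.1 h), rq_cast hc hP]
  · rw [if_neg h, if_neg fun h' => h (e.2 h')]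
    push_cast
    rw [Aq_cast hc hP, G0_cast hc hP, Uq_cast hP, ← d_eq hP]
    subst hP
    rfl

theorem nuq_cast (s0 s : St) (j r : ℕ) (σ : ℚ) (i : ℕ) :
    (nuq c s0 s j r σ i : ℝ) = nuR P (cli c P s0 j) (c.view s) r σ i := by
  have e : P.d (cli c P s0 j).j i = (c.dd j i : ℕ) := d_eq hP j i
  simp only [nuq, nuR, e, Nat.cast_lt, Nat.cast_inj]
  split_ifs
  · exact xq_cast hc hP s0 s j i
  · rw [Rat.cast_mul, xq_cast hc hP]
  · exact Rat.cast_zero

theorem vq_cast (p q : ℚ) (s0 s : St) (j r : ℕ) (σ : ℚ) : (vq c p q s0 s j r σ : ℝ) =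
    valR P (cli c P s0 j) ((c.view s).D j) p q (nuR P (cli c P s0 j) (c.view s) r σ) := by
  have e1 : (sm c (fun i => nuq c s0 s j r σ i) : ℝ) =
      ∑ i ∈ P.I, nuR P (cli c P s0 j) (c.view s) r σ i := by
    rw [sm_cast hc hP]
    exact sum_congr rfl fun i _ => nuq_cast hc hP s0 s j r σ i
  have e2 : (sm c (fun i => nuq c s0 s j r σ i * c.dd j i) : ℝ) =
      ∑ i ∈ P.I, nuR P (cli c P s0 j) (c.view s) r σ i * P.d j i := by
    rw [sm_cast hc hP]
    refine sum_congr rfl fun i _ => ?_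
    rw [Rat.cast_mul, nuq_cast hc hP, Rat.cast_natCast, ← d_eq hP]
  rw [vq]
  push_cast
  rw [e1, e2, Dn_cast]
  rfl

theorem phq_close {K : Un} (hK : (c.T : ℝ) + 1 < K.v) {s0 s : St} {j : ℕ} (hs : c.SOK n s)
    (hC : (cli c P s0 j).OK P) (hI : (cli c P s0 j).Inv P (c.view s)) :
    |(phq c K s0 s j : ℝ) - (cli c P s0 j).Phi P (c.view s)| ≤
      (21 + 16 * (c.T : ℝ) ^ 2) / K.v * P.U := by
  have hPo : P.OK := hP ▸ hc.pok
  have hV : (c.view s).OK P := hP ▸ hc.view_ok hs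
  have hT0 : (0 : ℝ) ≤ c.T := Nat.cast_nonneg _
  have hK0 : (0 : ℝ) < K.v := by linarith
  have hK1 : 0 < K.v := by exact_mod_cast hK0
  have hθ : (((s.2.2 : ℚ) / c.q : ℚ) : ℝ) = (c.view s).θ := by
    simp only [Cfg.view]
    push_cast
    rfl
  have hθT : (c.view s).θ ≤ c.T := by
    have := hV.θ_le
    subst hP
    exact this
  obtain ⟨p1, p2⟩ := pq_close (θ := (s.2.2 : ℚ) / c.q) (M := K.v) (T := c.T) (by positivity)
    (hθ ▸ hθT) hK
  rw [hθ] at p1 p2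
  have hne : P.I.Nonempty := by
    subst hP
    exact ⟨_, List.mem_toFinset.2 (hs.sub _ (headD_mem hs.ne))⟩
  have hmem : ∀ e, e ∈ P.I ↔ e ∈ c.F := fun e => by
    subst hP
    exact List.mem_toFinset
  have hU := hPo.U_pos
  have e0 : (21 + 16 * (c.T : ℝ) ^ 2) / K.v * P.U =
      P.U / K.v + 2 * ((10 + 8 * (c.T : ℝ) ^ 2) / K.v) * P.U := by ring
  have i1 : 0 ≤ P.U / K.v := by positivity
  have i2 : 0 ≤ 2 * ((10 + 8 * (c.T : ℝ) ^ 2) / K.v) * P.U := by positivity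
  have hcast : ∀ e t : ℕ, (vq c (pA ((s.2.2 : ℚ) / c.q) K.v) (qA ((s.2.2 : ℚ) / c.q) K.v) s0 s j
      (c.dd j e) ((t : ℚ) / K.v) : ℝ) = valR P (cli c P s0 j) ((c.view s).D (cli c P s0 j).j)
        (pA ((s.2.2 : ℚ) / c.q) K.v) (qA ((s.2.2 : ℚ) / c.q) K.v)
        (nuR P (cli c P s0 j) (c.view s) (P.d (cli c P s0 j).j e) (t / K.v)) := fun e t => by
    rw [vq_cast hc hP, ← d_eq hP]
    push_cast
    rfl
  rw [abs_le, e0]
  constructor
  · rcases qmin_mem (fun x : ℚ => x) (Dn c s j : ℚ) _ with h | h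
    · have h1 := phi_le_D hPo hC hV
      rw [phq, h, Rat.cast_natCast, Dn_cast]
      change _ ≤ (c.view s).D j at h1
      linarith
    · obtain ⟨e, -, h1⟩ := List.mem_flatMap.1 h
      obtain ⟨t, ht, h2⟩ := List.mem_map.1 h1
      have h3 : t ≤ K.v := Nat.lt_succ_iff.1 (List.mem_range.1 ht)
      have h4 := phi_le_val hPo hC hV hI p1 p2 (P.d (cli c P s0 j).j e) (s := t / K.v)
        (by positivity) ((div_le_one hK0).2 (by exact_mod_cast h3))
      rw [phq, ← h2, hcast]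
      linarith
  · have h1 := le_phi hPo hC hV hI hne p1 p2 hK1 (m := phq c K s0 s j) fun e he t ht => by
      rw [← hcast, Rat.cast_le]
      exact qmin_le (fun x : ℚ => x) _ (List.mem_flatMap.2 ⟨e, (hmem e).1 he,
        List.mem_map.2 ⟨t, List.mem_range.2 (Nat.lt_succ_iff.2 ht), rfl⟩⟩)
    linarith

theorem psq_close {K : Un} (hK : (c.T : ℝ) + 1 < K.v) {s0 s : St} {j : ℕ} (hs : c.SOK n s)
    (hC : (cli c P s0 j).OK P) (hI : (cli c P s0 j).Inv P (c.view s)) :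
    |(psq c K δ ε s0 s j : ℝ) - (cli c P s0 j).Psi P (c.view s)| ≤
      (21 + 16 * (c.T : ℝ) ^ 2) / K.v * P.U := by
  have e1 : (sm c (fun i => xq c s0 s0 j i * hq c δ s0 s j i) : ℝ) =
      (cli c P s0 j).W P (c.view s) := by
    rw [sm_cast hc hP]
    refine sum_congr rfl fun i _ => ?_
    rw [Rat.cast_mul, xq_cast hc hP, hq_cast hc hP]
    rfl
  refine le_trans (le_of_eq ?_) (phq_close hc hP hK hs hC hI)
  congr 1
  rw [psq, Client.Psi, Client.H]
  push_cast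
  rw [e1, Aq_cast hc hP, Gq_cast hc hP, Dn_cast]
  subst hP
  simp only [Cfg.par, cli]
  ring

omit hc in
theorem hhq_cast : (hhq c : ℝ) = P.h := by
  subst hP
  simp only [hhq, Cfg.par]
  push_cast
  rfl

end Vale.Agent.N334
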