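import Vale.Agent.P334.Classes

/-!
Metric `k`-median: deterministic polynomial time approximation algorithms, and the class P.
-/

namespace Vale.Agent.N334

open Vale.Agent.P334

/-- There is a deterministic polynomial time `c`-approximation algorithm: a polynomial time function
`A` which maps the code of every instance to the characteristic word of a feasible solution whose
cost is at most `c` times the optimum. -/
def HasDetApprox (c : ℝ) : Prop :=
  ∃ A : List Bool → List Bool, PolyTime A ∧
    ∀ I : Instance, ∃ S : Finset (Fin I.n),
      I.Feasible S ∧ A I.code = setW S ∧ I.cost S ≤ c * I.opt

/-- The deterministic approximation threshold: the infimum of all `c ≥ 1` for which there is a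
deterministic polynomial time `c`-approximation algorithm. -/
noncomputable def alphaDet : ℝ := sInf {c : ℝ | 1 ≤ c ∧ HasDetApprox c}

/-- The class P: languages decided by a polynomial time function. -/
def P : Set (Set (List Bool)) :=
  {L | ∃ A : List Bool → List Bool, PolyTime A ∧ ∀ x, x ∈ L ↔ A x = [true]}

end Vale.Agent.N334
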