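import Vale.Agent.N334.Cast

/-!
Metric `k`-median, derandomisation: the method of conditional expectations for the rounding process.
-/

namespace Vale.Agent.N334

open Finset Vale.Agent.P334 Vale.Agent.P334.Proc Vale.Agent.P334.Alg Vale.Agent.Lib.PolyTime
  Vale.Agent.P049 Vale.Agent.P315.H155

/-! ### The greedy run -/

/-- Outcomes which represent, together with `0`, all successors of a state. -/
def sucs (c : Cfg) : List ℕ :=
  c.q :: (2 * c.q + c.F.length * c.Λ) :: (List.range c.F.length).map fun a => 2 * c.q + a * c.Λ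

/-- The successor with the least value of `g`. -/
def dstep (c : Cfg) (g : St → ℚ) (s : St) : St :=
  c.step s (qmin (fun ω => g (c.step s ω)) 0 (sucs c))

/-- The greedy run with `S` steps. -/
def drun (c : Cfg) (g : ℕ → St → ℚ) (S : ℕ) (s : St) : St :=
  (List.range S).reverse.foldl (fun s t => dstep c (g t) s) s

theorem drun_succ (c : Cfg) (g : ℕ → St → ℚ) (S : ℕ) (s : St) :
    drun c g (S + 1) s = drun c g S (dstep c (g S) s) := by
  simp [drun, List.range_succ]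

theorem exists_suc {c : Cfg} (hq : 0 < c.q) (hΛ : 0 < c.Λ) (s : St) (ω : ℕ) :
    ∃ ω' ∈ 0 :: sucs c, c.step s ω' = c.step s ω := by
  by_cases h1 : ω < c.q
  · exact ⟨0, List.mem_cons_self, by rw [Cfg.step, Cfg.step, if_pos hq, if_pos h1]⟩
  by_cases h2 : ω < 2 * c.q
  · refine ⟨c.q, by simp [sucs], ?_⟩
    rw [Cfg.step, Cfg.step, if_neg (lt_irrefl _), if_pos (by omega), if_neg h1, if_pos h2]
  by_cases h3 : (ω - 2 * c.q) / c.Λ < c.F.length ∧
      (ω - 2 * c.q) % c.Λ < c.wt s (c.F.getD ((ω - 2 * c.q) / c.Λ) 0)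
  · refine ⟨2 * c.q + (ω - 2 * c.q) / c.Λ * c.Λ, List.mem_cons_of_mem _ (List.mem_cons_of_mem _
      (List.mem_cons_of_mem _ (List.mem_map.2 ⟨_, List.mem_range.2 h3.1, rfl⟩))), ?_⟩
    conv_rhs => rw [Cfg.step, if_neg h1, if_neg h2, if_pos h3]
    rw [Cfg.step, if_neg (by omega), if_neg (by omega), Nat.add_sub_cancel_left,
      Nat.mul_div_cancel _ hΛ, Nat.mul_mod_left, if_pos ⟨h3.1, (Nat.zero_le _).trans_lt h3.2⟩]
  · refine ⟨2 * c.q + c.F.length * c.Λ, by simp [sucs], ?_⟩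
    conv_rhs => rw [Cfg.step, if_neg h1, if_neg h2, if_neg h3]
    rw [Cfg.step, if_neg (by omega), if_neg (by omega), Nat.add_sub_cancel_left,
      Nat.mul_div_cancel _ hΛ, if_neg fun h => lt_irrefl _ h.1]

theorem dstep_le {c : Cfg} (hq : 0 < c.q) (hΛ : 0 < c.Λ) (g : St → ℚ) (s : St) (ω : ℕ) :
    g (dstep c g s) ≤ g (c.step s ω) := by
  obtain ⟨ω', h1, h2⟩ := exists_suc hq hΛ s ω
  rw [← h2]
  rcases List.mem_cons.1 h1 with rfl | h
  · exact qmin_le_init (fun ω => g (c.step s ω)) _ _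
  · exact qmin_le (fun ω => g (c.step s ω)) _ h

/-- The method of conditional expectations with an approximate potential. -/
theorem drun_le {c : Cfg} (hq : 0 < c.q) (hΛ : 0 < c.Λ) {Inv : St → Prop} {Ψ : ℕ → St → ℝ}
    {g : ℕ → St → ℚ} {γ err : ℝ} {S : ℕ} (hγ : 0 ≤ γ) (herr : 0 ≤ err)
    (hinv : ∀ s ω, Inv s → Inv (c.step s ω))
    (hstep : ∀ t s, Inv s → ∃ ω, Ψ t (c.step s ω) ≤ Ψ (t + 1) s + err)
    (h1 : ∀ t < S, ∀ s, Inv s → Ψ t s ≤ g t s + γ)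
    (h2 : ∀ t < S, ∀ s, Inv s → Ψ t s ≤ 1 → g t s ≤ Ψ t s + 2 * γ) (t : ℕ) (ht : t ≤ S) {s : St}
    (hs : Inv s) (h : Ψ t s + t * (err + 3 * γ) ≤ 1) :
    Inv (drun c g t s) ∧ Ψ 0 (drun c g t s) ≤ 1 := by
  induction t generalizing s with
  | zero => exact ⟨hs, by simpa [drun] using h⟩
  | succ t ih =>
    rw [drun_succ]
    obtain ⟨ω, hω⟩ := hstep t s hs
    have k0 : 0 ≤ t * (err + 3 * γ) := by positivity
    push_cast at h
    have k1 := h2 t ht _ (hinv s ω hs) (by linarith)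
    have k2 := h1 t ht (dstep c (g t) s) (hinv s _ hs)
    have k3 : (g t (dstep c (g t) s) : ℝ) ≤ g t (c.step s ω) :=
      Rat.cast_le.2 (dstep_le hq hΛ (g t) s ω)
    exact ih (by omega) (hinv s _ hs) (by linarith)

section pt

variable {α : Type} [Enc α] {c : α → Cfg}

theorem PT_sucs (hc : PT ∅ c) : PT ∅ fun a => sucs (c a) := by
  unfold sucs
  fun_prop

theorem PT_dstep (hc : PT ∅ c) {g : α → St → ℚ} (hg : PT ∅ fun p : α × St => g p.1 p.2)
    {s : α → St} (hs : PT ∅ s) : PT ∅ fun a => dstep (c a) (g a) (s a) :=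
  PT_step hc hs (PT_qmin (f := fun a ω => g a ((c a).step (s a) ω))
    (hg.comp (PT.fst'.pair (PT_step (hc.comp PT.fst') (hs.comp PT.fst') PT.snd'))) (PT.const 0)
    (PT_sucs hc))

theorem PT_drun (hc : PT ∅ c) {g : α → ℕ → St → ℚ}
    (hg : PT ∅ fun p : α × ℕ × St => g p.1 p.2.1 p.2.2) {n A : α → ℕ} {s : α → St} (hn : PT ∅ n)
    (hnb : PBd n) (hs : PT ∅ s) (hA : PT ∅ A) (h1 : ∀ a, (s a).1.length ≤ (c a).D.length)
    (h2 : ∀ a i, (s a).1.getD i 0 ≤ A a) : PT ∅ fun a => drun (c a) (g a) (n a) (s a) := by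
  have hc' := cpt_of hc
  have hb : PBd fun a => 2 * ((c a).D.length * (2 * esize (A a) + 1)) +
      (2 * (esize (s a).2.1 + n a * (2 * esize (c a).F + 1)) +
        esize (max (s a).2.2 ((c a).T * (c a).q)) + 1) + 1 :=
    (((PBd.const 2).mul ((PBd.length hc'.D).mul (((PBd.const 2).mul
      hA.pbd).add (PBd.const 1)))).add ((((PBd.const 2).mul (hs.snd.fst.pbd.add (hnb.mul
        (((PBd.const 2).mul hc'.F.pbd).add (PBd.const 1))))).add
          (PT.max hs.snd.snd (hc'.T.mul hc'.q)).pbd).add (PBd.const 1))).add (PBd.const 1)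
  refine PT.foldl (f := fun a s t => dstep (c a) (g a t) s) (PT.range hn hnb).reverse hs
    (PT_dstep (c := fun p : α × St × ℕ => c p.1) (g := fun p s => g p.1 p.2.2 s) (hc.comp PT.fst')
      (hg.comp (PT.fst'.fst.pair (PT.fst'.snd.snd.pair PT.snd'))) PT.snd'.fst) hb fun a i => ?_
  have key : ∀ (l : List ℕ) (s' : St), s'.1.length ≤ (c a).D.length → (∀ i, s'.1.getD i 0 ≤ A a) →
      (l.foldl (fun s t => dstep (c a) (g a t) s) s').1.length ≤ (c a).D.length ∧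
      (∀ i, (l.foldl (fun s t => dstep (c a) (g a t) s) s').1.getD i 0 ≤ A a) ∧
      esize (l.foldl (fun s t => dstep (c a) (g a t) s) s').2.1 ≤
        esize s'.2.1 + l.length * (2 * esize (c a).F + 1) ∧
      (l.foldl (fun s t => dstep (c a) (g a t) s) s').2.2 ≤ max s'.2.2 ((c a).T * (c a).q) := by
    intro l
    induction l with
    | nil => exact fun s' k1 k2 => ⟨k1, k2, by simp, le_max_left _ _⟩
    | cons t l ih =>
      intro s' k1 k2
      obtain ⟨l1, l2, l3, l4⟩ := step_bound (c a) s'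
        (qmin (fun ω => g a t ((c a).step s' ω)) 0 (sucs (c a))) k1 k2
      obtain ⟨m1, m2, m3, m4⟩ := ih (dstep (c a) (g a t) s') l1 l2
      rw [List.foldl_cons]
      refine ⟨m1, m2, m3.trans ?_, m4.trans (max_le l4 (le_max_right _ _))⟩
      change esize (dstep (c a) (g a t) s').2.1 ≤ _ at l3
      rw [List.length_cons, add_mul, one_mul]
      omega
  obtain ⟨k1, k2, k3, k4⟩ := key ((List.range (n a)).reverse.take i) (s a) (h1 a) (h2 a)
  set p := ((List.range (n a)).reverse.take i).foldl (fun s t => dstep (c a) (g a t) s) (s a)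
  have e1 := (LP.esize_le_of_getD k2).trans (Nat.mul_le_mul_right _ k1)
  have e2 := esize_nat_mono k4
  have e3 := Nat.mul_le_mul_right (2 * esize (c a).F + 1)
    (show ((List.range (n a)).reverse.take i).length ≤ n a by simp)
  rw [show p = (p.1, p.2.1, p.2.2) from rfl, esize_pair, esize_pair]
  omega

end pt

/-! ### The combined potential -/

/-- The combined potential, `t` steps before the end. -/
noncomputable def pot (P : Par) (J : Finset ℕ) (C : ℕ → Client) (a1 a2 a3 : ℝ) (t : ℕ)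
    (V : View) : ℝ :=
  a1 * ∑ j ∈ J, (C j).Psi P V +
    (a2 * (1 + (4 * P.h ^ 2 * P.n ^ 2 + 6 * P.n * P.ξ)) ^ t * Zed P V +
      a3 * (1 - P.h / 2) ^ t * V.mass P)

theorem inv_step {c : Cfg} {tb : ℕ → ℕ} {n δ ε : ℝ} (hc : c.OK tb n δ ε) {P : Par}
    (hP : P = c.par n δ ε) {J : Finset ℕ} {C : ℕ → Client} (hC : ∀ j ∈ J, (C j).OK P) (s : St)
    (ω : ℕ) (h : c.SOK n s ∧ ∀ j ∈ J, (C j).Inv P (c.view s)) :
    c.SOK n (c.step s ω) ∧ ∀ j ∈ J, (C j).Inv P (c.view (c.step s ω)) := by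
  subst hP
  have hPo := hc.pok
  have st := hc.step h.1
  rcases Cfg.step_cases (c := c) s ω with e | e | ⟨x, hx, e⟩ | e <;> rw [e]
  · exact ⟨h.1.decay, fun j hj => (hC j hj).inv_d hPo st (h.2 j hj)⟩
  · exact ⟨h.1.tick, fun j hj => (hC j hj).inv_t hPo st (h.2 j hj)⟩
  · exact ⟨h.1.ring hx, fun j hj => (hC j hj).inv_r hPo st (h.2 j hj) (List.mem_toFinset.2 hx)⟩
  · exact h

theorem pot_step {c : Cfg} {tb : ℕ → ℕ} {n δ ε : ℝ} (hc : c.OK tb n δ ε) {P : Par}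
    (hP : P = c.par n δ ε) {J : Finset ℕ} {C : ℕ → Client} (hC : ∀ j ∈ J, (C j).OK P)
    {a1 a2 a3 : ℝ} (h1 : 0 ≤ a1) (h2 : 0 ≤ a2) (h3 : 0 ≤ a3) (t : ℕ) (s : St)
    (h : c.SOK n s ∧ ∀ j ∈ J, (C j).Inv P (c.view s)) :
    ∃ ω, pot P J C a1 a2 a3 t (c.view (c.step s ω)) ≤ pot P J C a1 a2 a3 (t + 1) (c.view s) +
      (a1 * (J.card * (30 * P.h * P.δ * P.U + 4 * P.h ^ 2 * P.U + 250 * P.n * P.U * P.ξ)) +
        a3 * (P.n * P.ξ)) := by
  subst hP
  set P := c.par n δ ε with hP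
  have hPo : P.OK := hc.pok
  have hn := hPo.one_le_n
  have hξ := hPo.ξ_nonneg
  have hh := hPo.h_pos
  have hh1 : 0 ≤ 1 - P.h / 2 := by linarith [hPo.four_h]
  have st := hc.step h.1
  have hq := hc.q_pos
  have e1 := hc.avg h.1 (pot P J C a1 a2 a3 t)
  have e2 : (∑ ω ∈ range (4 * c.q), pot P J C a1 a2 a3 t (c.view (c.step s ω))) / (4 * c.q : ℕ) ≤
      pot P J C a1 a2 a3 (t + 1) (c.view s) +
      (a1 * (J.card * (30 * P.h * P.δ * P.U + 4 * P.h ^ 2 * P.U + 250 * P.n * P.U * P.ξ)) +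
        a3 * (P.n * P.ξ)) := by
    rw [e1]
    unfold pot
    set z := 4 * P.h ^ 2 * P.n ^ 2 + 6 * P.n * P.ξ with hz
    have hz0 : 0 ≤ z := by positivity
    rw [drift_add, drift_add, drift_mul, drift_mul, drift_mul, drift_sum J fun j => (C j).Psi P]
    have d1 := mul_le_mul_of_nonneg_left (sum_le_sum fun j hj =>
      facts.step _ _ _ _ _ _ hPo (hC j hj) st (h.2 j hj)) h1
    have d2 := mul_le_mul_of_nonneg_left (step_Zed hPo st)
      (show 0 ≤ a2 * (1 + z) ^ t by positivity)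
    have d3 := mul_le_mul_of_nonneg_left (step_mass hPo st)
      (show 0 ≤ a3 * (1 - P.h / 2) ^ t by positivity)
    have d4 : a3 * (1 - P.h / 2) ^ t * (P.n * P.ξ) ≤ a3 * 1 * (P.n * P.ξ) :=
      mul_le_mul_of_nonneg_right (mul_le_mul_of_nonneg_left
        (pow_le_one₀ hh1 (by linarith)) h3) (by positivity)
    rw [sum_const, nsmul_eq_mul] at d1
    rw [← hz] at d2
    rw [pow_succ (1 + z), pow_succ (1 - P.h / 2)]
    rw [mul_add] at d3
    linarith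
  rw [div_le_iff₀ (by positivity)] at e2
  obtain ⟨ω, -, hω⟩ := exists_le_of_sum_le (s := range (4 * c.q)) (nonempty_range_iff.2 (by omega))
    (e2.trans (le_of_eq (by rw [sum_const, card_range, nsmul_eq_mul, mul_comm])))
  exact ⟨ω, hω⟩

theorem pot_nonneg {c : Cfg} {tb : ℕ → ℕ} {n δ ε : ℝ} (hc : c.OK tb n δ ε) {P : Par}
    (hP : P = c.par n δ ε) {J : Finset ℕ} {C : ℕ → Client} (hC : ∀ j ∈ J, (C j).OK P)
    {a1 a2 a3 : ℝ} (h1 : 0 ≤ a1) (h2 : 0 ≤ a2) (h3 : 0 ≤ a3) (t : ℕ) (s : St)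
    (h : c.SOK n s ∧ ∀ j ∈ J, (C j).Inv P (c.view s)) :
    0 ≤ a1 * ∑ j ∈ J, (C j).Psi P (c.view s) ∧
      0 ≤ a2 * (1 + (4 * P.h ^ 2 * P.n ^ 2 + 6 * P.n * P.ξ)) ^ t * Zed P (c.view s) ∧
      0 ≤ a3 * (1 - P.h / 2) ^ t * (c.view s).mass P := by
  subst hP
  have hPo := hc.pok
  have hn := hPo.one_le_n
  have hξ := hPo.ξ_nonneg
  have hh1 : 0 ≤ 1 - (c.par n δ ε).h / 2 := by linarith [hPo.four_h]
  exact ⟨mul_nonneg h1 (sum_nonneg fun j hj => (facts.final _ _ _ hPo (hC j hj) (hc.view_ok h.1)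
    (h.2 j hj)).2), mul_nonneg (by positivity) (Real.exp_pos _).le,
    mul_nonneg (by positivity) (hc.view_ok h.1).mass_nonneg⟩

theorem est_close {c : Cfg} {tb : ℕ → ℕ} {n : Un} {δ ε : ℚ} (hc : c.OK tb n.v δ ε) {P : Par}
    (hP : P = c.par n.v δ ε) {J : List ℕ} (hJ : J.Nodup) {K S : Un} {a1 a2 a3 k2 : ℚ} {s0 : St}
    (hK : (c.T : ℝ) + 1 < K.v) (hC : ∀ j ∈ J.toFinset, (cli c P s0 j).OK P) (h1 : (0 : ℝ) ≤ a1)
    (h2 : (0 : ℝ) ≤ a2) (h3 : (0 : ℝ) ≤ a3) (hk0 : (0 : ℝ) ≤ k2) (hk : (k2 : ℝ) ≤ n.v) {γ : ℝ}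
    (hγ1 : a1 * (J.length * ((21 + 16 * (c.T : ℝ) ^ 2) / K.v * P.U)) ≤ γ) (hγ2 : 2 / K.v ≤ γ)
    {t : ℕ} (ht : t ≤ S.v) {s : St}
    (h : c.SOK n.v s ∧ ∀ j ∈ J.toFinset, (cli c P s0 j).Inv P (c.view s)) :
    pot P J.toFinset (cli c P s0) a1 (a2 * Real.exp (-(P.η / (4 * P.L) * k2))) a3 t (c.view s) ≤
        est c J K S n δ ε a1 a2 a3 k2 s0 t s + γ ∧
      (pot P J.toFinset (cli c P s0) a1 (a2 * Real.exp (-(P.η / (4 * P.L) * k2))) a3 t
        (c.view s) ≤ 1 → est c J K S n δ ε a1 a2 a3 k2 s0 t s ≤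
        pot P J.toFinset (cli c P s0) a1 (a2 * Real.exp (-(P.η / (4 * P.L) * k2))) a3 t
          (c.view s) + 2 * γ) := by
  have hPo : P.OK := hP ▸ hc.pok
  have hV : (c.view s).OK P := hP ▸ hc.view_ok h.1
  obtain ⟨n1, n2, n3⟩ := pot_nonneg hc hP hC h1
    (show 0 ≤ a2 * Real.exp (-(P.η / (4 * P.L) * k2)) by positivity) h3 t s h
  have hT0 : (0 : ℝ) ≤ c.T := Nat.cast_nonneg _
  have hK1 : (1 : ℝ) ≤ K.v := by linarith
  have hn : P.n = n.v := by rw [hP]; rfl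
  have hξ : P.ξ = 1 / c.N := by rw [hP]; rfl
  have hσ : P.η / (4 * P.L) = 1 / c.E / (4 * c.L) := by rw [hP]; rfl
  have hm : (sm c (fun i => yq c s i) : ℝ) = (c.view s).mass P := by
    rw [sm_cast hc hP]
    exact sum_congr rfl fun i _ => yq_cast s i
  have hn1 : (1 : ℝ) ≤ n.v := hn ▸ hPo.one_le_n
  have hσ0 : 0 < P.η / (4 * P.L) := hPo.s_pos
  have hσ1 : P.η / (4 * P.L) ≤ 1 := by linarith [hPo.s_le, hPo.η_le]
  obtain ⟨x, hx⟩ : ∃ x : ℚ, x = 1 / (c.E : ℚ) / (4 * c.L) *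
    (s.2.1.length + (sm c fun i => yq c s i) - k2) := ⟨_, rfl⟩
  have hx' : (x : ℝ) = P.η / (4 * P.L) * (s.2.1.length + (c.view s).mass P - k2) := by
    rw [hx, hσ, ← hm]
    push_cast
    rfl
  have hl0 : (0 : ℝ) ≤ s.2.1.length := Nat.cast_nonneg _
  have hx2 : (x : ℝ) ^ 2 ≤ ((s.2.1.length : ℝ) + n.v) ^ 2 := by
    have m0 := hV.mass_nonneg
    have m1 := hn ▸ hV.mass_le
    rw [hx', mul_pow]
    refine (mul_le_of_le_one_left (sq_nonneg _) (pow_le_one₀ hσ0.le hσ1)).trans ?_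
    exact sq_le_sq' (by linarith) (by linarith)
  have hM : ((K.v * (s.2.1.length + n.v) ^ 2 : ℕ) : ℝ) = K.v * ((s.2.1.length : ℝ) + n.v) ^ 2 := by
    push_cast
    rfl
  have hs1 : (1 : ℝ) ≤ ((s.2.1.length : ℝ) + n.v) ^ 2 := one_le_pow₀ (by linarith)
  obtain ⟨x1, x2⟩ := exP_spec (x := x) (M := K.v * (s.2.1.length + n.v) ^ 2)
    (by
      rw [← Nat.cast_le (α := ℝ), hM, Nat.cast_one]
      exact one_le_mul_of_one_le_of_one_le hK1 hs1)
    (by
      rw [hM]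
      exact hx2.trans (le_mul_of_one_le_left (by positivity) hK1))
  have x3 : (x : ℝ) ^ 2 / (K.v * (s.2.1.length + n.v) ^ 2 : ℕ) ≤ 1 / K.v := by
    rw [hM, div_le_div_iff₀ (by positivity) (by positivity), one_mul, mul_comm]
    exact mul_le_mul_of_nonneg_left hx2 (by positivity)
  have hZ : Real.exp x = Real.exp (-(P.η / (4 * P.L) * k2)) * Zed P (c.view s) := by
    rw [Zed, ← Real.exp_add, hx']
    congr 1
    change _ = _ + _ * ((s.2.1.length : ℝ) + _)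
    ring
  have hs : |((J.map fun j => psq c K δ ε s0 s j).sum : ℚ) -
      ∑ j ∈ J.toFinset, (cli c P s0 j).Psi P (c.view s)| ≤
      J.length * ((21 + 16 * (c.T : ℝ) ^ 2) / K.v * P.U) := by
    rw [← List.sum_toFinset _ hJ, Rat.cast_sum, ← sum_sub_distrib,
      ← List.toFinset_card_of_nodup hJ, ← nsmul_eq_mul, ← sum_const]
    exact (abs_sum_le_sum_abs _ _).trans (sum_le_sum fun j hj =>
      psq_close hc hP hK h.1 (hC j hj) (h.2 j hj))
  have he : (est c J K S n δ ε a1 a2 a3 k2 s0 t s : ℝ) =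
      a1 * ((J.map fun j => psq c K δ ε s0 s j).sum : ℚ) +
      (a2 * (1 + (4 * P.h ^ 2 * P.n ^ 2 + 6 * P.n * P.ξ)) ^ t *
        exP x (K.v * (s.2.1.length + n.v) ^ 2) + a3 * (1 - P.h / 2) ^ t * (c.view s).mass P) := by
    rw [est, ← hx, min_eq_left ht, ← hm, ← hhq_cast hP, hn, hξ]
    generalize (J.map fun j => psq c K δ ε s0 s j).sum = u
    push_cast
    rfl
  have hz : 0 ≤ a2 * (1 + (4 * P.h ^ 2 * P.n ^ 2 + 6 * P.n * P.ξ)) ^ t := by
    have := hPo.ξ_nonneg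
    have := hPo.one_le_n
    positivity
  rw [he]
  unfold pot
  set z := (1 + (4 * P.h ^ 2 * P.n ^ 2 + 6 * P.n * P.ξ)) ^ t
  have e0 : a2 * Real.exp (-(P.η / (4 * P.L) * k2)) * z * Zed P (c.view s) =
      a2 * z * Real.exp x := by
    rw [hZ]
    ring
  rw [e0] at n2 ⊢
  obtain ⟨s1, s2⟩ := abs_le.1 hs
  have t1 := mul_le_mul_of_nonneg_left s1 h1
  have t2 := mul_le_mul_of_nonneg_left s2 h1
  have t3 := mul_le_mul_of_nonneg_left x1 hz
  have t4 := mul_le_mul_of_nonneg_left (x2.trans (mul_le_mul_of_nonneg_left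
    (show _ ≤ 1 + 2 / (K.v : ℝ) by linarith [show 2 / (K.v : ℝ) = 2 * (1 / K.v) by ring])
    (Real.exp_pos _).le)) hz
  refine ⟨by linarith, fun h4 => ?_⟩
  have t5 : a2 * z * Real.exp x * (2 / K.v) ≤ 1 * (2 / K.v) :=
    mul_le_mul_of_nonneg_right (by linarith) (by positivity)
  linarith

/-- The greedy run keeps the potential below one. -/
theorem core_det {c : Cfg} {tb : ℕ → ℕ} {n : Un} {δ ε : ℚ} (hc : c.OK tb n.v δ ε) {P : Par}
    (hP : P = c.par n.v δ ε) {J : List ℕ} (hJ : J.Nodup) {K S : Un} {a1 a2 a3 k2 : ℚ} {s0 : St}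
    (hK : (c.T : ℝ) + 1 < K.v) (hC : ∀ j ∈ J.toFinset, (cli c P s0 j).OK P) (h1 : (0 : ℝ) ≤ a1)
    (h2 : (0 : ℝ) ≤ a2) (h3 : (0 : ℝ) ≤ a3) (hk0 : (0 : ℝ) ≤ k2) (hk : (k2 : ℝ) ≤ n.v) {γ : ℝ}
    (hγ1 : a1 * (J.length * ((21 + 16 * (c.T : ℝ) ^ 2) / K.v * P.U)) ≤ γ) (hγ2 : 2 / K.v ≤ γ)
    (hs : c.SOK n.v s0) {b2 : ℝ} (hb : b2 = a2 * Real.exp (-(P.η / (4 * P.L) * k2)))
    (h : pot P J.toFinset (cli c P s0) a1 b2 a3 S.v (c.view s0) + S.v * (a1 * (J.toFinset.card *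
      (30 * P.h * P.δ * P.U + 4 * P.h ^ 2 * P.U + 250 * P.n * P.U * P.ξ)) + a3 * (P.n * P.ξ) +
        3 * γ) ≤ 1) {s : St} (e : s = drun c (est c J K S n δ ε a1 a2 a3 k2 s0) S.v s0) :
    c.SOK n.v s ∧ (∀ j ∈ J.toFinset, (cli c P s0 j).Inv P (c.view s)) ∧
      a1 * ∑ j ∈ J.toFinset, (cli c P s0 j).Psi P (c.view s) ≤ 1 ∧ b2 * Zed P (c.view s) ≤ 1 ∧
      a3 * (c.view s).mass P ≤ 1 := by
  have hPo : P.OK := hP ▸ hc.pok
  have hδ := hPo.δ_nonneg
  have hξ := hPo.ξ_nonneg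
  have hn0 : 0 ≤ P.n := by linarith [hPo.one_le_n]
  have hU0 := hPo.U_pos
  have hh := hPo.h_pos
  have hΛ : 0 < c.Λ := by
    have h1 := hc.le_Λ
    have h2 := hc.N_pos
    have h3 := hc.L_pos
    have h4 : (0 : ℝ) < n.v := lt_of_lt_of_le one_pos hc.pok.one_le_n
    have h5 := hc.E_pos
    exact Nat.cast_pos.1 (lt_of_lt_of_le (by positivity) h1)
  have hb0 : 0 ≤ b2 := by
    rw [hb]
    positivity
  obtain ⟨g1, g2⟩ := drun_le hc.q_pos hΛ (le_trans (by positivity) hγ2) (by positivity)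
    (Inv := fun s => c.SOK n.v s ∧ ∀ j ∈ J.toFinset, (cli c P s0 j).Inv P (c.view s))
    (Ψ := fun t s => pot P J.toFinset (cli c P s0) a1 b2 a3 t (c.view s))
    (g := est c J K S n δ ε a1 a2 a3 k2 s0)
    (fun s ω h => inv_step hc hP hC s ω h) (fun t s h => pot_step hc hP hC h1 hb0 h3 t s h)
    (fun t ht s h => hb ▸ (est_close hc hP hJ hK hC h1 h2 h3 hk0 hk hγ1 hγ2 ht.le h).1)
    (fun t ht s h => hb ▸ (est_close hc hP hJ hK hC h1 h2 h3 hk0 hk hγ1 hγ2 ht.le h).2) _ le_rfl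
    ⟨hs, fun j _ => Client.OK.inv_init _ fun i => rfl⟩ h
  rw [← e] at g1 g2
  obtain ⟨n1, n2, n3⟩ := pot_nonneg hc hP hC h1 hb0 h3 0 s g1
  rw [pot] at g2
  simp only [pow_zero, mul_one] at g2 n2 n3
  exact ⟨g1.1, g1.2, by linarith, by linarith, by linarith⟩

/-! ### The deterministic algorithm -/

/-- The precision of the estimator. -/
def pK (E A T : ℕ) (x : Inp) : ℕ := 3 * E * pS E A x * pR E x * (21 + 16 * T ^ 2) + T + 2

/-- The weight of the potentials of the clients. -/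
def w1 (c : Cfg) (J : List ℕ) (s0 : St) (E : ℕ) (α : ℚ) : ℚ :=
  1 / ((1 + 8 / E) * (α * (J.map fun j => Gq c s0 s0 j).sum + c.M * c.u))

/-- The estimator used by the algorithm. -/
def gest (E A m T : ℕ) (tab : List ℕ) (α : ℚ) (x : Inp) : ℕ → St → ℚ :=
  est (cfg E A m T tab x) x.2.1 ⟨pK E A T x⟩ ⟨pS E A x⟩ ⟨nn x⟩
    (1 / (540 * pT E x * pR E x)) (1 / E) (w1 (cfg E A m T tab x) x.2.1 (start E A x) E α)
    (1 / (3 * E)) (pR E x) (x.2.2.2.1 + 2) (start E A x)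

/-- The deterministic pseudo-approximation algorithm. -/
def dalg (E A m T : ℕ) (tab : List ℕ) (α : ℚ) (x : Inp) : List ℕ :=
  (drun (cfg E A m T tab x) (gest E A m T tab α x) (pS E A x) (start E A x)).2.1

theorem PT_w1 {β : Type} [Enc β] {c : β → Cfg} {J : β → List ℕ} {s0 : β → St} (hc : PT ∅ c)
    (hJ : PT ∅ J) (hs : PT ∅ s0) (E : ℕ) (α : ℚ) : PT ∅ fun x => w1 (c x) (J x) (s0 x) E α := by
  unfold w1
  fun_prop

theorem pt_gest (E A m T : ℕ) (tab : List ℕ) (α : ℚ) :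
    PT ∅ fun p : Inp × ℕ × St => gest E A m T tab α p.1 p.2.1 p.2.2 := by
  have hc : PT ∅ (cfg E A m T tab) := pt_of_cpt (cpt_cfg E A m T tab)
  have hs := pt_start E A
  have hT := pt_pT E
  have hR := pt_pR E
  have hK : PT ∅ fun x => Un.mk (pK E A T x) := PT.mkUn
    ((((((PT.const (3 * E)).mul (pt_pS E A)).mul hR).mul (PT.const _)).add (PT.const T)).add
      (PT.const 2))
    ((((((PBd.const (3 * E)).mul (pbd_pS E A)).mul (pbd_pR E)).mul (PBd.const _)).add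
      (PBd.const T)).add (PBd.const 2))
  have h0 : ∀ {f g : Inp → ℕ}, PT ∅ f → PT ∅ g →
      PT ∅ fun x : Inp => (1 / (540 * f x * g x) : ℚ) := fun hf hg => by fun_prop
  have h3 : ∀ {f : Inp → ℕ}, PT ∅ f → PT ∅ fun x : Inp => (f x : ℚ) := fun hf => by fun_prop
  have hk : PT ∅ fun x : Inp => (x.2.2.2.1 + 2 : ℚ) := by fun_prop
  exact PT_est (c := fun p : Inp × ℕ × St => cfg E A m T tab p.1) (J := fun p => p.1.2.1)
    (K := fun p => ⟨pK E A T p.1⟩) (S := fun p => ⟨pS E A p.1⟩) (n := fun p => ⟨nn p.1⟩)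
    (δ := fun p => 1 / (540 * pT E p.1 * pR E p.1)) (ε := fun _ => 1 / E)
    (a1 := fun p => w1 (cfg E A m T tab p.1) p.1.2.1 (start E A p.1) E α)
    (a2 := fun _ => 1 / (3 * E)) (a3 := fun p => pR E p.1) (k2 := fun p => p.1.2.2.2.1 + 2)
    (s0 := fun p => start E A p.1) (t := fun p => p.2.1) (s := fun p => p.2.2)
    (hc.comp PT.fst') PT.fst'.snd.fst (hK.comp PT.fst')
    (((pt_pS E A).mkUn (pbd_pS E A)).comp PT.fst') ((pt_nn.mkUn pbd_nn).comp PT.fst')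
    ((h0 hT hR).comp PT.fst') (PT.const _) ((PT_w1 hc PT.snd'.fst hs E α).comp PT.fst')
    (PT.const _) ((h3 hR).comp PT.fst') (hk.comp PT.fst') (hs.comp PT.fst') PT.snd'.fst PT.snd'.snd

theorem pt_dalg (E A m T : ℕ) (tab : List ℕ) (α : ℚ) : PT ∅ (dalg E A m T tab α) :=
  (PT_drun (pt_of_cpt (cpt_cfg E A m T tab)) (pt_gest E A m T tab α) (pt_pS E A) (pbd_pS E A)
    (pt_start E A) (pt_pN E A) (fun x => by simp [Alg.start, cfg]) (start_le E A)).snd.fst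

theorem gamma_arith {E S R T K n j W M u a : ℝ} (hE : 0 < E) (hS : 0 ≤ S) (hT : 0 ≤ T)
    (hn : 1 ≤ n) (hj0 : 0 ≤ j) (hj : j ≤ n) (hW : 0 ≤ W) (hM : 0 < M) (hu : 0 < u)
    (hR : R = n * (W + 1)) (hK : K = 3 * E * S * R * (21 + 16 * T ^ 2) + T + 2)
    (ha : a ≤ 1 / (M * u)) : T + 1 < K ∧
      a * (j * ((21 + 16 * T ^ 2) / K * (M * (W + 1) * u))) ≤ R * (21 + 16 * T ^ 2) / K ∧
      2 / K ≤ R * (21 + 16 * T ^ 2) / K ∧ S * (3 * (R * (21 + 16 * T ^ 2) / K)) ≤ 1 / E := by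
  have hR1 : 1 ≤ R := hR ▸ one_le_mul_of_one_le_of_one_le hn (by linarith)
  have hK0 : 0 ≤ 3 * E * S * R * (21 + 16 * T ^ 2) := by positivity
  have hK1 : 0 < K := by linarith
  refine ⟨by linarith, (mul_le_mul_of_nonneg_right ha (by positivity)).trans ?_,
    div_le_div_of_nonneg_right ?_ hK1.le, ?_⟩
  · rw [hR, show 1 / (M * u) * (j * ((21 + 16 * T ^ 2) / K * (M * (W + 1) * u))) =
      j * (W + 1) * (21 + 16 * T ^ 2) / K by field_simp]
    gcongr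
  · nlinarith [sq_nonneg T]
  · rw [← mul_div_assoc, ← mul_div_assoc, div_le_div_iff₀ hK1 hE, hK]
    linarith

section final

variable {D : List (List ℕ)} {J F : List ℕ} {k U : ℕ} (hv : Valid D J F k U) {E A m T : ℕ}
  (hE : 10 ≤ E) (hA : 1 ≤ A) {tab : List ℕ} {X : Inp} (hX : X = (D, J, F, k, U))
  {c : Cfg} (hc : c = cfg E A m T tab X) {P : Par}
  (hP : P = c.par (nn X) (1 / (540 * pT E X * pR E X)) (1 / E)) {s0 : St} (hs0 : s0 = start E A X)

include hv hE hA hX hc hP hs0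

theorem start_ok : c.SOK (nn X) s0 ∧ (c.view s0).θ = 0 ∧
    Zed P (c.view s0) ≤ Real.exp (P.η / (4 * P.L) * (k + 2)) ∧ ∃ x : ℕ → ℕ → ℝ,
      (∀ j, ∀ i ∈ P.I, 0 ≤ x j i ∧ x j i ≤ (c.view s0).y i) ∧ (∀ j, ∑ i ∈ P.I, x j i = 1) ∧
      ∑ j ∈ J.toFinset, ∑ i ∈ P.I, x j i * P.d j i ≤
        c.M * (c.W * (opt (dm D) J F k + U / (E * (J.length + 1))) + J.length * c.u) := by
  obtain ⟨a1, -⟩ := par_arith hv hE hA hX hc hP
  obtain ⟨hI, hcF, -, -, hd, -, -, -, hσ, -, -, hnn⟩ := rel hX hc hP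
  obtain ⟨l1, -, -, l4, x, x0, x1, x2, x3⟩ := LP.lp_spec hv (show 1 ≤ E by omega)
  rw [← hX] at l1 l4 x1
  have hk : (k : ℝ) ≤ F.length := by exact_mod_cast hv.k_le
  have hL0 : (0 : ℝ) < (LP.lp E X).2 := by exact_mod_cast l1
  have hJ0 : (0 : ℝ) ≤ J.length := Nat.cast_nonneg _
  have hcard : J.toFinset.card = J.length := List.toFinset_card_of_nodup hv.J_nodup
  have hy : ∀ i ∈ F, (c.view s0).y i = (LP.lp E X).1.getD i 0 / (LP.lp E X).2 := fun i hi => by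
    have h1 : s0.1.getD i 0 = (LP.lp E X).1.getD i 0 * pG E A X :=
      hs0 ▸ LP.getD_map_range _ _ (hX ▸ hv.F_lt i hi)
    have h2 : (0 : ℝ) < pG E A X := by exact_mod_cast a1
    simp only [Cfg.view, h1]
    rw [hc]
    simp only [cfg, pN]
    push_cast
    field_simp
  have hmass : (c.view s0).mass P ≤ k + 1 := by
    rw [View.mass, hI, sum_congr rfl fun i hi => hy i (List.mem_toFinset.1 hi), ← sum_div,
      div_le_iff₀ hL0]
    exact_mod_cast l4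
  have hS : s0.2 = ([F.headD 0], 0) := by rw [hs0, hX]; rfl
  refine ⟨⟨by simp [hS], fun e he => ?_, by simp [hS], ?_⟩, by simp [Cfg.view, hS], ?_, x,
    fun j i hi => ⟨x0 j i, ?_⟩, fun j => hI ▸ x2 j, ?_⟩
  · rw [hS] at he
    rw [hcF, List.mem_singleton.1 he]
    exact headD_mem hv.F_ne
  · rw [hP] at hmass
    exact le_trans hmass (by linarith)
  · refine Real.exp_le_exp.2 (mul_le_mul_of_nonneg_left ?_ (by rw [hσ]; positivity))
    have : (c.view s0).cnt = 1 := by simp [Cfg.view, hS]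
    rw [this]
    push_cast
    linarith
  · rw [hI, List.mem_toFinset] at hi
    rw [hy i hi]
    exact x1 j i hi
  · have : ∀ j, ∑ i ∈ P.I, x j i * P.d j i =
        c.M * (c.W * ∑ i ∈ F.toFinset, x j i * dm D j i + c.u) := fun j => by
      conv_rhs => rw [← one_mul (c.u : ℝ), ← x2 j, sum_mul, mul_sum, ← sum_add_distrib, mul_sum]
      rw [hI]
      exact sum_congr rfl fun i _ => by rw [hd]; ring
    rw [sum_congr rfl fun j _ => this j, ← mul_sum, sum_add_distrib, ← mul_sum, sum_const, hcard,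
      nsmul_eq_mul]
    exact mul_le_mul_of_nonneg_left (add_le_add_left (mul_le_mul_of_nonneg_left x3
      (Nat.cast_nonneg _)) _) (Nat.cast_nonneg _)

theorem init_pot {tb : ℕ → ℕ} (hok : c.OK tb (nn X) (1 / (540 * pT E X * pR E X)) (1 / E))
    {α : ℝ} (hα1 : 1 + 2 / Real.exp 1 + 34000 / E ≤ α) (C1 : ∀ j, (cli c P s0 j).OK P) {G : ℝ}
    (hG : G = ∑ j ∈ J.toFinset, (cli c P s0 j).G0 P) (hG0 : 0 ≤ G) :
    pot P J.toFinset (cli c P s0) (1 / ((1 + 8 / E) * (α * G + c.M * c.u)))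
      (1 / (3 * E * Real.exp (P.η / (4 * P.L) * (k + 2)))) (pR E X) (pS E A X) (c.view s0) +
      pS E A X * (1 / ((1 + 8 / E) * (α * G + c.M * c.u)) * (J.toFinset.card *
        (30 * P.h * P.δ * P.U + 4 * P.h ^ 2 * P.U + 250 * P.n * P.U * P.ξ)) +
        pR E X * (P.n * P.ξ)) ≤ 1 - 1 / E := by
  obtain ⟨-, -, a3, -, a5, -, -, -, -, -, a11, a12, a13, a14⟩ := par_arith hv hE hA hX hc hP
  obtain ⟨-, -, -, -, -, hU, hη, hε, -, -, hR, hnn⟩ := rel hX hc hP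
  obtain ⟨hs, hθ, b5, -⟩ := start_ok hv hE hA hX hc hP hs0
  have hE' : (10 : ℝ) ≤ E := by exact_mod_cast hE
  have hPo : P.OK := hP ▸ hok.pok
  have hV : (c.view s0).OK P := hP ▸ hok.view_ok hs
  have hM0 : (0 : ℝ) < c.M := by linarith
  have hu0 : (0 : ℝ) < c.u := by exact_mod_cast hok.u_pos
  have hF0 : (0 : ℝ) ≤ F.length := Nat.cast_nonneg _
  have hcard : J.toFinset.card = J.length := List.toFinset_card_of_nodup hv.J_nodup
  have hα0 : (0 : ℝ) ≤ α := le_trans (by positivity) hα1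
  have hδ := hPo.δ_nonneg
  have hξ := hPo.ξ_nonneg
  have hn0 : 0 ≤ P.n := by linarith [hPo.one_le_n]
  have b2 : ∑ j ∈ J.toFinset, (cli c P s0 j).Psi P (c.view s0) ≤
      α * G + J.length * (120 * P.δ * P.U) := by
    refine (sum_le_sum fun j _ => facts.init P _ _ hPo (C1 j) hV (fun i => rfl) hθ).trans ?_
    rw [sum_add_distrib, ← mul_sum, sum_const, hcard, nsmul_eq_mul, hη, hε, ← hG]
    refine add_le_add_left (mul_le_mul_of_nonneg_right (le_trans (le_of_eq ?_) hα1) hG0) _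
    ring
  have b3 : J.length * (c.W + 1) * (120 * P.δ + pS E A X *
      (30 * P.h * P.δ + 4 * P.h ^ 2 + 250 * P.n * P.ξ)) ≤ 1 := by
    refine le_trans (mul_le_mul_of_nonneg_right ?_ (by positivity)) a11
    rw [hR]
    exact mul_le_mul_of_nonneg_right (by linarith) (by positivity)
  have b4 := mul_le_mul_of_nonneg_left b3 (mul_pos hM0 hu0).le
  have b6 := init_arith (Er := J.toFinset.card *
    (30 * P.h * P.δ * P.U + 4 * P.h ^ 2 * P.U + 250 * P.n * P.U * P.ξ)) (B := α * G + c.M * c.u)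
    (Ps := ∑ j ∈ J.toFinset, (cli c P s0 j).Psi P (c.view s0)) hE' (by positivity) (by
      rw [hU] at b2
      rw [hU, hcard]
      linarith) (by positivity) a12 (Real.exp_pos _) b5 a3 hPo.four_h (Nat.cast_nonneg _)
    hV.mass_le a13 a14
  exact le_sub_comm.1 b6

theorem good_det {tb : ℕ → ℕ} (hok : c.OK tb (nn X) (1 / (540 * pT E X * pR E X)) (1 / E))
    {α : ℚ} (hα1 : 1 + 2 / Real.exp 1 + 34000 / E ≤ α) (hα : (α : ℝ) ≤ 2) :
    Good ((1 + 8 / E) * α) (8 / E) (2 + 12 * E ^ 2 * (1 + 2 * E)) D J F k U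
      (dalg E A m T tab α X) := by
  obtain ⟨-, -, -, -, -, hU, -, -, -, -, hR, hnn⟩ := rel hX hc hP
  obtain ⟨hs, -, -, x, x1, x2, x3⟩ := start_ok hv hE hA hX hc hP hs0
  have hE0 : (0 : ℝ) < E := by exact_mod_cast (show 0 < E by omega)
  have hPo : P.OK := hP ▸ hok.pok
  have hk : (k : ℝ) ≤ F.length := by exact_mod_cast hv.k_le
  have hM0 : (0 : ℝ) < c.M := by exact_mod_cast (show 0 < c.M by linarith [hok.two_le_M])
  have hu0 : (0 : ℝ) < c.u := by exact_mod_cast hok.u_pos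
  have hJ0 : (0 : ℝ) ≤ J.length := Nat.cast_nonneg _
  have hF0 : (0 : ℝ) ≤ F.length := Nat.cast_nonneg _
  have eδ : ((1 / (540 * pT E X * pR E X) : ℚ) : ℝ) = 1 / (540 * pT E X * pR E X) := by
    push_cast
    rfl
  have eε : ((1 / E : ℚ) : ℝ) = 1 / E := by
    push_cast
    rfl
  have hok' : c.OK tb (Un.mk (nn X)).v (1 / (540 * pT E X * pR E X) : ℚ) (1 / E : ℚ) := by
    rw [eδ, eε]
    exact hok
  have hP' : P = c.par (Un.mk (nn X)).v (1 / (540 * pT E X * pR E X) : ℚ) (1 / E : ℚ) := by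
    rw [eδ, eε]
    exact hP
  have hcli := cli_ok hok' hP' (s0 := s0) ((x2 0).ge.trans (sum_le_sum fun i hi => (x1 0 i hi).2))
  have C1 : ∀ j, (cli c P s0 j).OK P := fun j => (hcli j).1
  have hα0 : (0 : ℝ) ≤ α := le_trans (by positivity) hα1
  obtain ⟨G, hG⟩ : ∃ G, G = ∑ j ∈ J.toFinset, (cli c P s0 j).G0 P := ⟨_, rfl⟩
  have hG0 : 0 ≤ G := hG ▸ sum_nonneg fun j _ => sum_nonneg fun i _ => mul_nonneg
    (mul_nonneg ((C1 j).lam_nonneg i) ((C1 j).y0_nonneg i)) (hPo.d_pos _ _).le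
  have b1 := (hG.trans_le (sum_le_sum fun j _ => (hcli j).2 _ (x1 j) (x2 j))).trans x3
  have hB : 0 < α * G + c.M * c.u := by positivity
  have e1 : (w1 c J s0 E α : ℝ) = 1 / ((1 + 8 / E) * (α * G + c.M * c.u)) := by
    rw [w1, ← List.sum_toFinset _ hv.J_nodup, hG, ← sum_congr rfl fun j _ => G0_cast hok' hP' s0 j]
    push_cast
    rfl
  have e2 : ((1 / (3 * E) : ℚ) : ℝ) = 1 / (3 * E) := by
    push_cast
    rfl
  have e3 : ((k + 2 : ℚ) : ℝ) = k + 2 := by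
    push_cast
    rfl
  have hcT : c.T = T := by rw [hc]; rfl
  obtain ⟨γ0, γ1, γ2, γ3⟩ := gamma_arith (S := pS E A X) (T := T) (K := pK E A T X)
    (a := w1 c J s0 E α) hE0 (Nat.cast_nonneg _) (Nat.cast_nonneg _) (by linarith) hJ0
    (by linarith) (Nat.cast_nonneg _) hM0 hu0 hR (by rw [pK]; push_cast; rfl) (by
      rw [e1]
      refine one_div_le_one_div_of_le (by positivity) (le_trans ?_
        (le_mul_of_one_le_left hB.le (le_add_of_nonneg_right (by positivity))))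
      exact le_add_of_nonneg_left (by positivity))
  have b6 := init_pot hv hE hA hX hc hP hs0 hok hα1 C1 hG hG0
  obtain ⟨s, es⟩ : ∃ s, s = drun c (gest E A m T tab α X) (pS E A X) s0 := ⟨_, rfl⟩
  obtain ⟨g1, g2, g3, g4, g5⟩ := core_det hok' hP' hv.J_nodup (K := ⟨pK E A T X⟩)
    (S := ⟨pS E A X⟩) (s0 := s0) (a1 := w1 c J s0 E α) (a2 := 1 / (3 * E)) (a3 := pR E X)
    (k2 := k + 2) (hcT ▸ γ0) (fun j _ => C1 j) (by rw [e1]; positivity) (by rw [e2]; positivity)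
    (by positivity) (by rw [e3]; positivity) (by
      rw [e3]
      change _ ≤ (nn X : ℝ)
      linarith) (by rw [hcT, hU]; exact γ1) γ2 hs
    (b2 := 1 / (3 * E * Real.exp (P.η / (4 * P.L) * (k + 2)))) (by
      rw [e2, e3, Real.exp_neg]
      field_simp) (by
      rw [e1, Rat.cast_natCast, mul_add _ _ (3 * _)]
      exact (add_assoc _ _ _).ge.trans ((add_le_add b6 γ3).trans (sub_add_cancel _ _).le))
    (s := s) (by
      rw [es, hc, hs0, hX]
      rfl)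
  have e4 : dalg E A m T tab α X = s.2.1 := by
    rw [es, hc, hs0]
    rfl
  rw [e1, one_div_mul_eq_div, div_le_one (by positivity)] at g3
  rw [one_div_mul_eq_div, div_le_one (by positivity)] at g4
  rw [Rat.cast_natCast] at g5
  rw [e4]
  exact final_good hv hE hX hc hP facts hok hα0 hα C1 (fun _ => rfl) g1 g2
    (g3.trans (mul_le_mul_of_nonneg_left (add_le_add_left (mul_le_mul_of_nonneg_left b1 hα0) _)
      (by positivity))) g4 g5

end final

/-- Deterministic polynomial time pseudo-approximation. -/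
theorem pseudoDet {ε : ℝ} (hε : 0 < ε) : ∃ (c : ℕ) (f : Inp → List ℕ), PT ∅ f ∧
    ∀ (D : List (List ℕ)) (J F : List ℕ) (k U : ℕ), Valid D J F k U →
      Good (1 + 2 / Real.exp 1 + ε) ε c D J F k U (f (D, J, F, k, U)) := by
  obtain ⟨E, hE⟩ := exists_nat_ge (max 200000 (70000 / ε))
  have hE1 : (200000 : ℝ) ≤ E := (le_max_left _ _).trans hE
  have hE0 : (0 : ℝ) < E := by linarith
  have hE2 : 70000 / (E : ℝ) ≤ ε := by
    rw [div_le_iff₀ hE0, mul_comm, ← div_le_iff₀ hε]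
    exact (le_max_right _ _).trans hE
  have hE3 : 10 ≤ E := by exact_mod_cast (show (10 : ℝ) ≤ E by linarith)
  have hi : 0 < 1 / (E : ℝ) := by positivity
  have hi1 : 1 / (E : ℝ) ≤ 1 / 200000 := one_div_le_one_div_of_le (by norm_num) hE1
  have he : 2 / Real.exp 1 ≤ 3 / 4 := by
    rw [div_le_iff₀ (Real.exp_pos 1)]
    linarith [Real.exp_one_gt_d9]
  have he0 : 0 ≤ 2 / Real.exp 1 := by positivity
  obtain ⟨T, κ0, hκ, hT⟩ := tick_exists hi
  obtain ⟨m, tb, hm, t1, t2, t3⟩ := slope_exists hi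
  obtain ⟨A, hA⟩ := exists_nat_ge (max 1 (1 / κ0))
  have hA1 : 1 ≤ A := by exact_mod_cast (le_max_left _ _).trans hA
  have hA2 : 1 ≤ A * κ0 := by
    rw [← div_le_iff₀ hκ]
    exact (le_max_right _ _).trans hA
  obtain ⟨α, α1, α2⟩ := exists_rat_btwn
    (lt_add_of_pos_right (1 + 2 / Real.exp 1 + 34000 / E) hi)
  refine ⟨2 + 12 * E ^ 2 * (1 + 2 * E), dalg E A m T ((List.range (T * m + 1)).map tb) α,
    pt_dalg _ _ _ _ _ _, fun D J F k U hv => ?_⟩
  have e1 : 34000 / (E : ℝ) = 34000 * (1 / E) := by ring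
  have e2 : 8 / (E : ℝ) = 8 * (1 / E) := by ring
  have e3 : 70000 / (E : ℝ) = 70000 * (1 / E) := by ring
  have h := good_det hv hE3 hA1 rfl rfl rfl rfl (cfg_ok hv hE3 hA1 rfl rfl rfl rfl hm t1 t2 t3
    fun κ h0 h1 => hT κ h0 (by
      have hA0 : (0 : ℝ) < A := by exact_mod_cast hA1
      exact le_of_mul_le_mul_left (by linarith) hA0)) α1.le (by linarith)
  refine ⟨h.1, h.2.trans (add_le_add (mul_le_mul_of_nonneg_right ?_ (Nat.cast_nonneg _))
    (div_le_div_of_nonneg_right (mul_le_mul_of_nonneg_right (by linarith)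
      (Nat.cast_nonneg _)) (by positivity)))⟩
  rw [e2]
  nlinarith

end Vale.Agent.N334
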