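import Vale.Agent.N334.Apx

/-!
Metric `k`-median, derandomisation: the estimator of the potential in rational arithmetic.
-/

namespace Vale.Agent.N334

open Finset Vale.Agent.P334 Vale.Agent.P334.Proc Vale.Agent.P334.Alg Vale.Agent.Lib.PolyTime
  Vale.Agent.P049 Vale.Agent.P315.H155

/-! ### Minima of rational valued functions -/

/-- The first element of `x :: L` with the least value of `f`. -/
def qmin {β : Type} (f : β → ℚ) (x : β) (L : List β) : β :=
  L.foldl (fun b y => if f y < f b then y else b) x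

section qmin

variable {β : Type} (f : β → ℚ)

theorem qmin_cons (x y : β) (L : List β) :
    qmin f x (y :: L) = qmin f (if f y < f x then y else x) L := rfl

theorem qmin_mem (x : β) (L : List β) : qmin f x L = x ∨ qmin f x L ∈ L := by
  induction L generalizing x with
  | nil => exact Or.inl rfl
  | cons y L ih =>
    rw [qmin_cons]
    rcases ih (if f y < f x then y else x) with h | h
    · rw [h]
      split_ifs
      · exact Or.inr List.mem_cons_self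
      · exact Or.inl rfl
    · exact Or.inr (List.mem_cons_of_mem _ h)

theorem qmin_le_init (x : β) (L : List β) : f (qmin f x L) ≤ f x := by
  induction L generalizing x with
  | nil => exact le_rfl
  | cons y L ih =>
    rw [qmin_cons]
    refine (ih _).trans ?_
    split_ifs with h
    · exact h.le
    · exact le_rfl

theorem qmin_le (x : β) {L : List β} {y : β} (hy : y ∈ L) : f (qmin f x L) ≤ f y := by
  induction L generalizing x with
  | nil => exact absurd hy List.not_mem_nil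
  | cons z L ih =>
    rw [qmin_cons]
    rcases List.mem_cons.1 hy with rfl | h
    · refine (qmin_le_init f _ L).trans ?_
      split_ifs with h
      · exact le_rfl
      · exact not_lt.1 h
    · exact ih _ h

end qmin

variable {α β : Type} [Enc α] [Enc β]

@[fun_prop]
theorem PT_qmin {f : α → β → ℚ} {x : α → β} {L : α → List β}
    (hf : PT ∅ fun p : α × β => f p.1 p.2) (hx : PT ∅ x) (hL : PT ∅ L) :
    PT ∅ fun a => qmin (f a) (x a) (L a) := by
  refine PT.foldl (f := fun a b y => if f a y < f a b then y else b) hL hx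
    (PT.ite (PT_ratLt (hf.comp (PT.fst'.pair PT.snd'.snd)) (hf.comp (PT.fst'.pair PT.snd'.fst)))
      PT.snd'.snd PT.snd'.fst) (hx.pbd.add hL.pbd) fun a i => ?_
  rcases qmin_mem (f a) (x a) ((L a).take i) with h | h
  · rw [show List.foldl _ (x a) ((L a).take i) = qmin (f a) (x a) ((L a).take i) from rfl, h]
    exact Nat.le_add_right _ _
  · exact (esize_le_of_mem (List.mem_of_mem_take h)).trans (Nat.le_add_left _ _)

/-! ### The code of the static data -/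

instance encCfg : Enc Cfg := ⟨fun c => enc (c.D, c.F, c.N, Un.mk c.M, c.Ms, Un.mk c.W, c.u, c.L,
  c.E, c.m, c.T, c.q, c.Λ, c.tab)⟩

theorem cpt_of {c : α → Cfg} (h : PT ∅ c) : CPT c := by
  have h1 : PT ∅ fun a => ((c a).D, (c a).F, (c a).N, Un.mk (c a).M, (c a).Ms, Un.mk (c a).W,
      (c a).u, (c a).L, (c a).E, (c a).m, (c a).T, (c a).q, (c a).Λ, (c a).tab) := by
    obtain ⟨g, hg, hg'⟩ := h
    exact ⟨g, hg, fun a => hg' a⟩
  have h2 := h1.snd.snd.snd
  have h3 := h2.snd.snd.snd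
  have h4 := h3.snd.snd.snd
  exact ⟨h1.fst, h1.snd.fst, h1.snd.snd.fst, h2.fst.unVal, h2.snd.fst, h2.snd.snd.fst.unVal, h3.fst,
    h3.snd.fst, h3.snd.snd.fst, h4.fst, h4.snd.fst, h4.snd.snd.fst, h4.snd.snd.snd.fst,
    h4.snd.snd.snd.snd, PBd.unVal h2.fst, PBd.unVal h2.snd.snd.fst⟩

theorem pt_of_cpt {c : α → Cfg} (h : CPT c) : PT ∅ c := by
  obtain ⟨g, hg, hg'⟩ := h.D.pair (h.F.pair (h.N.pair ((h.M.mkUn h.Mb).pair (h.Ms.pair
    ((h.W.mkUn h.Wb).pair (h.u.pair (h.L.pair (h.E.pair (h.m.pair (h.T.pair (h.q.pair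
      (h.Λ.pair h.tab))))))))))))
  exact ⟨g, hg, fun a => hg' a⟩

section proj

variable {c : α → Cfg} (hc : PT ∅ c)

include hc

@[fun_prop] theorem PT_D : PT ∅ fun a => (c a).D := (cpt_of hc).D
@[fun_prop] theorem PT_F : PT ∅ fun a => (c a).F := (cpt_of hc).F
@[fun_prop] theorem PT_N : PT ∅ fun a => (c a).N := (cpt_of hc).N
@[fun_prop] theorem PT_M : PT ∅ fun a => (c a).M := (cpt_of hc).M
@[fun_prop] theorem PT_W : PT ∅ fun a => (c a).W := (cpt_of hc).W
@[fun_prop] theorem PT_u : PT ∅ fun a => (c a).u := (cpt_of hc).u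
@[fun_prop] theorem PT_L : PT ∅ fun a => (c a).L := (cpt_of hc).L
@[fun_prop] theorem PT_E : PT ∅ fun a => (c a).E := (cpt_of hc).E
@[fun_prop] theorem PT_q : PT ∅ fun a => (c a).q := (cpt_of hc).q
@[fun_prop] theorem PT_Λ : PT ∅ fun a => (c a).Λ := (cpt_of hc).Λ

@[fun_prop]
theorem PT_dd {x y : α → ℕ} (hx : PT ∅ x) (hy : PT ∅ y) : PT ∅ fun a => (c a).dd (x a) (y a) :=
  pt_dd (cpt_of hc) hx hy

@[fun_prop]
theorem PT_rad {s : α → St} {i : α → ℕ} (hs : PT ∅ s) (hi : PT ∅ i) :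
    PT ∅ fun a => (c a).rad (s a) (i a) := pt_rad (cpt_of hc) hs hi

@[fun_prop]
theorem PT_jj {s : α → St} {i e : α → ℕ} (hs : PT ∅ s) (hi : PT ∅ i) (he : PT ∅ e) :
    PT ∅ fun a => (c a).jj (s a) (i a) (e a) := pt_jj (cpt_of hc) hs hi he

@[fun_prop]
theorem PT_step {s : α → St} {ω : α → ℕ} (hs : PT ∅ s) (hω : PT ∅ ω) :
    PT ∅ fun a => (c a).step (s a) (ω a) := pt_step (cpt_of hc) hs hω

end proj

/-! ### The estimator -/

section defs

variable (c : Cfg)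

/-- Sums over the facilities. -/
def sm (f : ℕ → ℚ) : ℚ := (c.F.map f).sum

/-- The masses. -/
def yq (s : St) (i : ℕ) : ℚ := (s.1.getD i 0 : ℚ) / c.N

/-- The distances to the open facilities. -/
def Dn (s : St) (a : ℕ) : ℕ := c.M * (c.W * dl (dm c.D) a s.2.1 + c.u)

/-- The facilities whose ball around `j` has initial mass at least one. -/
def full (s0 : St) (j : ℕ) : List ℕ :=
  c.F.filter fun e => decide (1 ≤ sm c fun i => if c.dd j i ≤ c.dd j e then yq c s0 i else 0)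

/-- The radius of the client `j`. -/
def Rn (s0 : St) (j : ℕ) : ℕ := c.dd j (amin (fun e => c.dd j e) ((full c s0 j).headD 0) (full c s0 j))

/-- The shares of the client `j`. -/
def lam (s0 : St) (j i : ℕ) : ℚ :=
  if c.dd j i < Rn c s0 j then 1 else if c.dd j i = Rn c s0 j then
    (1 - sm c fun e => if c.dd j e < Rn c s0 j then yq c s0 e else 0) /
      sm c fun e => if c.dd j e = Rn c s0 j then yq c s0 e else 0
  else 0

/-- The living assignment. -/
def xq (s0 s : St) (j i : ℕ) : ℚ := lam c s0 j i * yq c s i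

/-- Its mass. -/
def Aq (s0 s : St) (j : ℕ) : ℚ := sm c fun i => xq c s0 s j i

/-- Its cost. -/
def Gq (s0 s : St) (j : ℕ) : ℚ := sm c fun i => xq c s0 s j i * c.dd j i

/-- The mean distance of the killers. -/
def rq (s : St) (i : ℕ) : ℚ := sm c fun e => yq c s e * ((c.jj s i e : ℚ) / c.N) * c.dd i e

/-- The bound for the distances. -/
def Uq : ℚ := c.M * (c.W + 1) * c.u

/-- The potential of one facility. -/
def hq (δ : ℚ) (s0 s : St) (j i : ℕ) : ℚ :=
  if c.rad s i = Dn c s i then rq c s i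
  else 14 * Rn c s0 j * (1 - Aq c s0 s j) + 1400 * (c.dd j i + Gq c s0 s0 j) + 200 * δ * Uq c

/-- The candidates for the minimum. -/
def nuq (s0 s : St) (j r : ℕ) (σ : ℚ) (i : ℕ) : ℚ :=
  if c.dd j i < r then xq c s0 s j i else if c.dd j i = r then σ * xq c s0 s j i else 0

/-- Their values. -/
def vq (p q : ℚ) (s0 s : St) (j r : ℕ) (σ : ℚ) : ℚ :=
  (1 - sm c fun i => nuq c s0 s j r σ i) * Dn c s j +
    (q + p * sm c fun i => nuq c s0 s j r σ i) * sm c fun i => nuq c s0 s j r σ i * c.dd j i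

/-- The estimator of the main potential. -/
def phq (K : Un) (s0 s : St) (j : ℕ) : ℚ :=
  qmin (fun x => x) (Dn c s j : ℚ) (c.F.flatMap fun e => (List.range (K.v + 1)).map fun t : ℕ =>
    vq c (pA ((s.2.2 : ℚ) / c.q) K.v) (qA ((s.2.2 : ℚ) / c.q) K.v) s0 s j (c.dd j e) ((t : ℚ) / K.v))

/-- The estimator of the total potential of a client. -/
def psq (K : Un) (δ ε : ℚ) (s0 s : St) (j : ℕ) : ℚ :=
  phq c K s0 s j + 1 / (c.E : ℚ) * (2 * (Aq c s0 s j * (1 - Aq c s0 s j) * Dn c s j) +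
    6 * sm c fun i => xq c s0 s0 j i * hq c δ s0 s j i) + 200 * (1 / (c.E : ℚ) + ε) * Gq c s0 s j

/-- The time step. -/
def hhq : ℚ := c.N ^ 5 * c.L * c.E / (4 * c.q)

/-- The estimator of the combined potential, `t` steps before the end. -/
def est (J : List ℕ) (K S n : Un) (δ ε a1 a2 a3 k2 : ℚ) (s0 : St) (t : ℕ) (s : St) : ℚ :=
  a1 * (J.map fun j => psq c K δ ε s0 s j).sum +
    (a2 * (1 + (4 * hhq c ^ 2 * (n.v : ℚ) ^ 2 + 6 * n.v * (1 / c.N))) ^ min t S.v *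
      exP (1 / (c.E : ℚ) / (4 * c.L) * (s.2.1.length + (sm c fun i => yq c s i) - k2))
        (K.v * (s.2.1.length + n.v) ^ 2) +
      a3 * (1 - hhq c / 2) ^ min t S.v * sm c fun i => yq c s i)

end defs

/-! ### Polynomial time -/

section pt

@[fun_prop]
theorem PT_exN {x : α → ℚ} {M : α → ℕ} (hx : PT ∅ x) (hM : PT ∅ M) (hb : PBd M) :
    PT ∅ fun a => exN (x a) (M a) := by
  unfold exN
  fun_prop

@[fun_prop]
theorem PT_exP {x : α → ℚ} {M : α → ℕ} (hx : PT ∅ x) (hM : PT ∅ M) (hb : PBd M) :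
    PT ∅ fun a => exP (x a) (M a) := by
  unfold exP
  exact PT_ratPow (by fun_prop) hM hb

@[fun_prop]
theorem PT_pA {x : α → ℚ} {M : α → ℕ} (hx : PT ∅ x) (hM : PT ∅ M) (hb : PBd M) :
    PT ∅ fun a => pA (x a) (M a) := by
  unfold pA
  fun_prop

@[fun_prop]
theorem PT_qA {x : α → ℚ} {M : α → ℕ} (hx : PT ∅ x) (hM : PT ∅ M) (hb : PBd M) :
    PT ∅ fun a => qA (x a) (M a) := by
  unfold qA
  fun_prop

variable {c : α → Cfg} (hc : PT ∅ c) {s0 s : α → St} {i j r : α → ℕ} {δ ε σ p q : α → ℚ}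
  {K : α → Un}

include hc

@[fun_prop]
theorem PT_sm {f : α → ℕ → ℚ} (hf : PT ∅ fun p : α × ℕ => f p.1 p.2) :
    PT ∅ fun a => sm (c a) (f a) := PT_ratListSum (PT.map (PT_F hc) hf)

@[fun_prop]
theorem PT_yq (hs : PT ∅ s) (hi : PT ∅ i) : PT ∅ fun a => yq (c a) (s a) (i a) := by
  unfold yq
  fun_prop

@[fun_prop]
theorem PT_Dn (hs : PT ∅ s) (hi : PT ∅ i) : PT ∅ fun a => Dn (c a) (s a) (i a) :=
  (PT_M hc).mul (((PT_W hc).mul (pt_dl (PT_D hc) hi hs.snd.fst)).add (PT_u hc))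

@[fun_prop]
theorem PT_full (hs : PT ∅ s0) (hj : PT ∅ j) : PT ∅ fun a => full (c a) (s0 a) (j a) := by
  unfold full
  fun_prop

@[fun_prop]
theorem PT_Rn (hs : PT ∅ s0) (hj : PT ∅ j) : PT ∅ fun a => Rn (c a) (s0 a) (j a) :=
  PT_dd hc hj (pt_amin (f := fun a e => (c a).dd (j a) e) (by fun_prop) (by fun_prop)
    (PT_full hc hs hj))

@[fun_prop]
theorem PT_lam (hs : PT ∅ s0) (hj : PT ∅ j) (hi : PT ∅ i) :
    PT ∅ fun a => lam (c a) (s0 a) (j a) (i a) := by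
  unfold lam
  fun_prop

@[fun_prop]
theorem PT_xq (hs0 : PT ∅ s0) (hs : PT ∅ s) (hj : PT ∅ j) (hi : PT ∅ i) :
    PT ∅ fun a => xq (c a) (s0 a) (s a) (j a) (i a) := by
  unfold xq
  fun_prop

@[fun_prop]
theorem PT_Aq (hs0 : PT ∅ s0) (hs : PT ∅ s) (hj : PT ∅ j) :
    PT ∅ fun a => Aq (c a) (s0 a) (s a) (j a) := by
  unfold Aq
  fun_prop

@[fun_prop]
theorem PT_Gq (hs0 : PT ∅ s0) (hs : PT ∅ s) (hj : PT ∅ j) :
    PT ∅ fun a => Gq (c a) (s0 a) (s a) (j a) := by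
  unfold Gq
  fun_prop

@[fun_prop]
theorem PT_rq (hs : PT ∅ s) (hi : PT ∅ i) : PT ∅ fun a => rq (c a) (s a) (i a) := by
  unfold rq
  fun_prop

@[fun_prop]
theorem PT_Uq : PT ∅ fun a => Uq (c a) := by
  unfold Uq
  fun_prop

@[fun_prop]
theorem PT_hq (hδ : PT ∅ δ) (hs0 : PT ∅ s0) (hs : PT ∅ s) (hj : PT ∅ j) (hi : PT ∅ i) :
    PT ∅ fun a => hq (c a) (δ a) (s0 a) (s a) (j a) (i a) := by
  unfold hq
  fun_prop

@[fun_prop]
theorem PT_nuq (hs0 : PT ∅ s0) (hs : PT ∅ s) (hj : PT ∅ j) (hr : PT ∅ r) (hσ : PT ∅ σ)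
    (hi : PT ∅ i) : PT ∅ fun a => nuq (c a) (s0 a) (s a) (j a) (r a) (σ a) (i a) := by
  unfold nuq
  fun_prop

@[fun_prop]
theorem PT_vq (hp : PT ∅ p) (hq : PT ∅ q) (hs0 : PT ∅ s0) (hs : PT ∅ s) (hj : PT ∅ j)
    (hr : PT ∅ r) (hσ : PT ∅ σ) :
    PT ∅ fun a => vq (c a) (p a) (q a) (s0 a) (s a) (j a) (r a) (σ a) := by
  unfold vq
  fun_prop

@[fun_prop]
theorem PT_phq (hK : PT ∅ K) (hs0 : PT ∅ s0) (hs : PT ∅ s) (hj : PT ∅ j) :
    PT ∅ fun a => phq (c a) (K a) (s0 a) (s a) (j a) := by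
  unfold phq
  fun_prop

@[fun_prop]
theorem PT_psq (hK : PT ∅ K) (hδ : PT ∅ δ) (hε : PT ∅ ε) (hs0 : PT ∅ s0) (hs : PT ∅ s)
    (hj : PT ∅ j) : PT ∅ fun a => psq (c a) (K a) (δ a) (ε a) (s0 a) (s a) (j a) := by
  unfold psq
  fun_prop

@[fun_prop]
theorem PT_hhq : PT ∅ fun a => hhq (c a) := by
  unfold hhq
  fun_prop

theorem PT_est {J : α → List ℕ} {S n : α → Un} {a1 a2 a3 k2 : α → ℚ} {t : α → ℕ} (hJ : PT ∅ J)
    (hK : PT ∅ K) (hS : PT ∅ S) (hn : PT ∅ n) (hδ : PT ∅ δ) (hε : PT ∅ ε) (h1 : PT ∅ a1)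
    (h2 : PT ∅ a2) (h3 : PT ∅ a3) (hk : PT ∅ k2) (hs0 : PT ∅ s0) (ht : PT ∅ t) (hs : PT ∅ s) :
    PT ∅ fun a => est (c a) (J a) (K a) (S a) (n a) (δ a) (ε a) (a1 a) (a2 a) (a3 a) (k2 a) (s0 a)
      (t a) (s a) := by
  have hb : PBd fun a => min (t a) (S a).v := PBd_min_right (PBd.unVal hS)
  have hm : PT ∅ fun a => min (t a) (S a).v := ht.min hS.unVal
  unfold est
  refine PT_ratAdd (by fun_prop) (PT_ratAdd (PT_ratMul (PT_ratMul h2 (PT_ratPow (by fun_prop) hm hb))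
    (PT_exP (by fun_prop) (by fun_prop) (by fun_prop)))
    (PT_ratMul (PT_ratMul h3 (PT_ratPow (by fun_prop) hm hb)) (by fun_prop)))

end pt

end Vale.Agent.N334
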