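import Vale.Agent.N334.Det
import Vale.Agent.N334.Defs

/-!
Metric `k`-median: the deterministic approximation algorithm, and the deterministic threshold.
-/

namespace Vale.Agent.N334

open Finset Vale.Agent.P334 Vale.Agent.P334.Lower Vale.Agent.Lib.PolyTime Vale.Agent.Lib.PCP

/-- From pseudo-approximation to approximation, without coins. -/
theorem outerDet {ε : ℝ} (hε : 0 < ε) : ∃ g : Inp0 → List ℕ, PT ∅ g ∧
    ∀ (D : List (List ℕ)) (J F : List ℕ) (k : ℕ), Valid0 D J F k → Feas F k (g (D, J, F, k)) ∧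
      (cost (dm D) J (g (D, J, F, k)) : ℝ) ≤ (1 + 2 / Real.exp 1 + ε) * opt (dm D) J F k := by
  have h1 : 0 < 2 / Real.exp 1 := by positivity
  have h2 : 2 / Real.exp 1 ≤ 1 := by
    rw [div_le_one (Real.exp_pos 1)]
    linarith [Real.add_one_le_exp (1 : ℝ)]
  set η : ℝ := min (ε / 10) (1 / 10) with hη
  have hη0 : 0 < η := lt_min (by linarith) (by norm_num)
  have hη1 : η ≤ ε / 10 := min_le_left _ _
  obtain ⟨c, f, hf, h⟩ := pseudoDet hη0
  obtain ⟨M, hM⟩ := exists_target (α := 1 + 2 / Real.exp 1) (by linarith) (by linarith) hη0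
    (min_le_right _ _) c
  refine ⟨fun x => pick x (x.2.1 :: tup x.2.2.1 M ++ (0 :: x.1.flatten).flatMap fun r =>
    cands1 (fun p => f p.1) c M x ⟨[]⟩ r), ?_, fun D J F k hv => ⟨pick_feas hv _, ?_⟩⟩
  · exact pt_pick PT.id (PT.append (PT.cons PT.snd'.fst (pt_tup PT.snd'.snd.fst M))
      (PT.flatMap (PT.cons (PT.const 0) PT.fst'.flatten)
        (pt_cands1 (hf.comp PT.fst') c M PT.fst' (PT.const _) PT.snd')))
  have h0 : (0 : ℝ) ≤ opt (dm D) J F k := Nat.cast_nonneg _
  rcases hM D J F k hv with ⟨S, s1, s2, s3⟩ | ⟨k', r, k1, k2, hr, hg⟩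
  · refine le_trans (Nat.cast_le.2 (pick_le D J F k
      (List.mem_append_left _ (List.mem_cons_of_mem _ s1)) s2)) ?_
    rw [s3]
    exact le_mul_of_one_le_left h0 (by linarith)
  · obtain ⟨S, s1, s2, s3⟩ := hg (fun p => f p.1) ⟨[]⟩ (h _ J F k' _ (hv.valid _ k1 k2))
    refine le_trans (Nat.cast_le.2 (pick_le D J F k
      (List.mem_append_right _ (List.mem_flatMap.2 ⟨r, hr, s1⟩)) s2)) (s3.trans ?_)
    exact mul_le_mul_of_nonneg_right (by linarith) h0

/-- The deterministic approximation algorithm. -/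
theorem hasDetApprox {ε : ℝ} (hε : 0 < ε) : HasDetApprox (1 + 2 / Real.exp 1 + ε) := by
  obtain ⟨g, hg, h⟩ := outerDet hε
  have hA : PT ∅ fun z : Dat => Raw.mk ((List.range (conv z).1.length).map fun i =>
      decide (i ∈ g (conv z))) :=
    PT.rawOfList (PT.map (PT.range pt_conv.fst.length (PBd.length pt_conv.fst))
      (PT.mem ((hg.comp pt_conv).comp PT.fst') PT.snd'))
  obtain ⟨A, hA, hA'⟩ := hA
  refine ⟨A, polyTime_iff.2 hA, fun I => ?_⟩
  obtain ⟨h1, h2⟩ := h _ _ _ _ (valid_conv I)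
  have hQ : (0 : ℝ) < den (mat I) := by exact_mod_cast den_pos I
  refine ⟨_, feasible_toSet I h1, ?_, ?_⟩
  · rw [setW_toSet, code_eq]
    refine (hA' (dat I)).trans ?_
    simp only [enc_raw, conv_dat, imat_length]
  · rw [cost_toSet I h1.1 fun s hs => by
      obtain ⟨x, -, rfl⟩ := (mem_pos _ _).1 (h1.2.1 s hs)
      exact x.2]
    refine (div_le_div_of_nonneg_right h2 hQ.le).trans ?_
    rw [mul_div_assoc]
    exact mul_le_mul_of_nonneg_left (opt_conv I) (by positivity)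

/-- A deterministic approximation algorithm with a factor below `1 + 2 / e` puts NP into P. -/
theorem np_subset_p {c : ℝ} (hc0 : 0 ≤ c) (hc : c < 1 + 2 / Real.exp 1) (h : HasDetApprox c) :
    NP ⊆ P := by
  obtain ⟨A, hA, h⟩ := h
  have he : 1 / Real.exp 1 ≤ 1 := by
    rw [div_le_one (Real.exp_pos 1)]
    exact Real.one_le_exp zero_le_one
  obtain ⟨r, hr1, hr2⟩ := exists_rat_btwn (show 1 - 1 / Real.exp 1 < (3 - c) / 2 by
    have : 2 / Real.exp 1 = 2 * (1 / Real.exp 1) := by ring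
    linarith)
  have hr0 : 0 ≤ r := by
    have : (0 : ℝ) ≤ r := by linarith
    exact_mod_cast this
  have hrd : (0 : ℝ) < r.den := by exact_mod_cast r.den_pos
  have hrn : ((r.num.natAbs : ℕ) : ℝ) = r * r.den := by
    have h1 : ((r.num.natAbs : ℕ) : ℤ) = r.num := Int.natAbs_of_nonneg (Rat.num_nonneg.2 hr0)
    have h2 : ((r.num.natAbs : ℕ) : ℝ) = (r.num : ℝ) := by
      rw [← Int.cast_natCast, h1]
    rw [h2]
    exact_mod_cast (Rat.mul_den_eq_num r).symm
  have hard := hard_maxCov (ε := r - (1 - 1 / Real.exp 1)) (by linarith)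
  rw [add_sub_cancel] at hard
  have hout : PT ∅ fun p : ℕ × List (List ℕ) => Raw.mk (A (enc (data p))) := by
    obtain ⟨g, hg, hg'⟩ := pt_data
    exact ⟨_, (polyTime_iff.1 hA).comp hg, fun z => by rw [hg']; rfl⟩
  obtain ⟨B, hB, hB'⟩ : PT ∅ fun p : ℕ × List (List ℕ) => Raw.mk [decide
      (r.num.natAbs * p.2.length < r.den * cntOut p.2 (A (enc (data p))))] :=
    PT.rawOfList (PT.cons (((PT.const _).mul PT.snd'.length).lt
      ((PT.const _).mul (pt_cntOut PT.snd' (PT.listOfRaw hout)))) PT.nil)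
  have hiff : ∀ a b : ℕ, r.num.natAbs * a < r.den * b ↔ (r : ℝ) * a < b := by
    intro a b
    rw [← Nat.cast_lt (α := ℝ)]
    push_cast
    rw [hrn, mul_comm (r : ℝ), mul_assoc, mul_lt_mul_iff_right₀ hrd]
  intro L hL
  refine hard.inP_of_decides hB (fun p hp => ?_) (fun p hp => ?_) (L := L) (by
    obtain ⟨V, q, hV, hL⟩ := hL
    refine ⟨V, q, hV, fun x => ?_⟩
    rw [hL x, pairW_eq, pairW_eq_pr])
  · obtain ⟨S, s1, s2, s3⟩ := h (inst p)
    have hm : (0 : ℝ) < p.2.length := by exact_mod_cast List.length_pos_iff.2 hp.2.1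
    have h1 := (le_cost s1).trans (s3.trans (mul_le_mul_of_nonneg_left (opt_le_of_yes hp) hc0))
    rw [hB', enc_raw]
    dsimp only
    rw [← code_inst, s2, cntOut_setW s1, List.cons.injEq, decide_eq_true_eq, hiff]
    exact ⟨by nlinarith, rfl⟩
  · obtain ⟨S, s1, s2, -⟩ := h (inst p)
    rw [hB', enc_raw]
    dsimp only
    rw [← code_inst, s2, cntOut_setW s1, Ne, List.cons.injEq, decide_eq_true_eq, hiff]
    exact fun h => absurd h.1 (not_lt.2 (hp.2.2 _ (card_names hp.1 s1)))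

/-- The value of the deterministic threshold. -/
theorem alphaDet_eq (h : ¬ NP ⊆ P) : alphaDet = 1 + 2 / Real.exp 1 := by
  have he : 0 < 2 / Real.exp 1 := by positivity
  refine le_antisymm (le_of_forall_pos_le_add fun ε hε => ?_) ?_
  · exact csInf_le ⟨1, fun _ hc => hc.1⟩ ⟨by linarith, hasDetApprox hε⟩
  · exact le_csInf ⟨_, by linarith, hasDetApprox one_pos⟩ fun _ hc => not_lt.1 fun h' =>
      h (np_subset_p (zero_le_one.trans hc.1) h' hc.2)

end Vale.Agent.N334
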